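import Mathlib

/-!
# Row 325, module M3 (S): median split and the involution of a list of pairs (helper12)
-/

set_option autoImplicit false

namespace Crest.Agent.N325.Split

open Finset

/-- The involution of a list of pairs, as an array over `ℕ` (identity off the pairs). -/
def piOf : List (ℕ × ℕ) → ℕ → ℕ
  | [] => id
  | p :: P => Function.update (Function.update (piOf P) p.1 p.2) p.2 p.1

/-- all ends of the pairs -/
def ends (P : List (ℕ × ℕ)) : List ℕ := P.map Prod.fst ++ P.map Prod.snd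

lemma mem_ends {P : List (ℕ × ℕ)} {i : ℕ} : i ∈ ends P ↔ ∃ p ∈ P, p.1 = i ∨ p.2 = i := by
  simp only [ends, List.mem_append, List.mem_map]
  constructor
  · rintro (⟨p, hp, h⟩ | ⟨p, hp, h⟩)
    · exact ⟨p, hp, Or.inl h⟩
    · exact ⟨p, hp, Or.inr h⟩
  · rintro ⟨p, hp, h | h⟩
    · exact Or.inl ⟨p, hp, h⟩
    · exact Or.inr ⟨p, hp, h⟩

lemma ends_cons_perm (p : ℕ × ℕ) (P : List (ℕ × ℕ)) :
    (ends (p :: P)).Perm (p.1 :: p.2 :: ends P) := by
  simp only [ends, List.map_cons, List.cons_append]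
  exact List.Perm.cons _ List.perm_middle

lemma nodup_ends_cons {p : ℕ × ℕ} {P : List (ℕ × ℕ)} (h : (ends (p :: P)).Nodup) :
    p.1 ≠ p.2 ∧ p.1 ∉ ends P ∧ p.2 ∉ ends P ∧ (ends P).Nodup := by
  have := (ends_cons_perm p P).nodup_iff.1 h
  simp only [List.nodup_cons, List.mem_cons, not_or] at this
  exact ⟨this.1.1, this.1.2, this.2.1, this.2.2⟩

lemma piOf_of_notMem {P : List (ℕ × ℕ)} {i : ℕ} (h : i ∉ ends P) : piOf P i = i := by
  induction P with
  | nil => rfl
  | cons p P ih =>
    have h' := mt (ends_cons_perm p P).mem_iff.2 h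
    simp only [List.mem_cons, not_or] at h'
    simp [piOf, Function.update_of_ne h'.1, Function.update_of_ne h'.2.1, ih h'.2.2]

lemma piOf_pair {P : List (ℕ × ℕ)} (h : (ends P).Nodup) {p : ℕ × ℕ} (hp : p ∈ P) :
    piOf P p.1 = p.2 ∧ piOf P p.2 = p.1 := by
  induction P with
  | nil => simp at hp
  | cons q P ih =>
    obtain ⟨h1, h2, h3, h4⟩ := nodup_ends_cons h
    rcases List.mem_cons.1 hp with rfl | hp'
    · simp [piOf, Function.update_of_ne h1]
    · have m1 : p.1 ∈ ends P := mem_ends.2 ⟨p, hp', Or.inl rfl⟩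
      have m2 : p.2 ∈ ends P := mem_ends.2 ⟨p, hp', Or.inr rfl⟩
      have a1 : p.1 ≠ q.1 := fun e => h2 (e ▸ m1)
      have a2 : p.1 ≠ q.2 := fun e => h3 (e ▸ m1)
      have a3 : p.2 ≠ q.1 := fun e => h2 (e ▸ m2)
      have a4 : p.2 ≠ q.2 := fun e => h3 (e ▸ m2)
      simp only [piOf, Function.update_of_ne a1, Function.update_of_ne a2,
        Function.update_of_ne a3, Function.update_of_ne a4]
      exact ih h4 hp'

/-- every point is a fixed point off the pairs, or an end of a pair mapped to the other end -/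
lemma piOf_cases {P : List (ℕ × ℕ)} (h : (ends P).Nodup) (i : ℕ) :
    (i ∉ ends P ∧ piOf P i = i) ∨ (i, piOf P i) ∈ P ∨ (piOf P i, i) ∈ P := by
  by_cases hi : i ∈ ends P
  · obtain ⟨p, hp, rfl | rfl⟩ := mem_ends.1 hi
    · right; left; rw [(piOf_pair h hp).1]; exact hp
    · right; right; rw [(piOf_pair h hp).2]; exact hp
  · exact Or.inl ⟨hi, piOf_of_notMem hi⟩

theorem piOf_invol {P : List (ℕ × ℕ)} (h : (ends P).Nodup) : Function.Involutive (piOf P) := by
  intro i
  rcases piOf_cases h i with ⟨_, h1⟩ | h1 | h1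
  · rw [h1, h1]
  · exact (piOf_pair h h1).2
  · exact (piOf_pair h h1).1

lemma piOf_lt {P : List (ℕ × ℕ)} (h : (ends P).Nodup) {N : ℕ} (hN : ∀ i ∈ ends P, i < N)
    {i : ℕ} (hi : i < N) : piOf P i < N := by
  rcases piOf_cases h i with ⟨_, h1⟩ | h1 | h1
  · rwa [h1]
  · exact hN _ (mem_ends.2 ⟨_, h1, Or.inr rfl⟩)
  · exact hN _ (mem_ends.2 ⟨_, h1, Or.inl rfl⟩)

/-- an array over `ℕ` read as a map of `Fin N` -/
def finPi (N : ℕ) (f : ℕ → ℕ) (i : Fin N) : Fin N := if h : f i < N then ⟨f i, h⟩ else i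

lemma finPi_val {N : ℕ} {f : ℕ → ℕ} (hf : ∀ i < N, f i < N) (i : Fin N) :
    (finPi N f i : ℕ) = f i := by
  simp [finPi, hf i i.2]

lemma finPi_invol {N : ℕ} {f : ℕ → ℕ} (hf : ∀ i < N, f i < N) (h : Function.Involutive f) :
    Function.Involutive (finPi N f) := by
  intro i
  ext
  rw [finPi_val hf, finPi_val hf, h]

/-! ### the median split -/

/-- lower half of the sorted units -/
def lowHalf (L : List ℕ) : List ℕ := L.take (L.length / 2)

/-- upper half of the sorted units (the middle one is left out when the length is odd) -/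
def highHalf (L : List ℕ) : List ℕ := L.drop ((L.length + 1) / 2)

lemma length_lowHalf (L : List ℕ) : (lowHalf L).length = L.length / 2 := by
  simp only [lowHalf, List.length_take]; omega

lemma length_highHalf (L : List ℕ) : (highHalf L).length = L.length / 2 := by
  simp only [highHalf, List.length_drop]; omega

lemma halves_sublist (L : List ℕ) : (lowHalf L ++ highHalf L).Sublist L := by
  conv_rhs => rw [← List.take_append_drop (L.length / 2) L]
  refine List.Sublist.append_left ?_ _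
  exact List.drop_sublist_drop_left L (by omega)

/-- `P` is a perfect matching between the two halves of `L` -/
structure Matches (L : List ℕ) (P : List (ℕ × ℕ)) : Prop where
  fst : (P.map Prod.fst).Perm (lowHalf L)
  snd : (P.map Prod.snd).Perm (highHalf L)

lemma Matches.ends_perm {L : List ℕ} {P : List (ℕ × ℕ)} (h : Matches L P) :
    (ends P).Perm (lowHalf L ++ highHalf L) := h.fst.append h.snd

lemma Matches.nodup {L : List ℕ} {P : List (ℕ × ℕ)} (h : Matches L P) (hL : L.Nodup) :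
    (ends P).Nodup := h.ends_perm.nodup_iff.2 (hL.sublist (halves_sublist L))

lemma Matches.lt {L : List ℕ} {P : List (ℕ × ℕ)} (h : Matches L P) {N : ℕ}
    (hL : L.Perm (List.range N)) : ∀ i ∈ ends P, i < N := fun _ hi =>
  List.mem_range.1 (hL.mem_iff.1 ((halves_sublist L).subset (h.ends_perm.mem_iff.1 hi)))

lemma Matches.piOf_lt {L : List ℕ} {P : List (ℕ × ℕ)} (h : Matches L P) {N : ℕ}
    (hL : L.Perm (List.range N)) : ∀ i < N, piOf P i < N := fun _ hi =>
  Split.piOf_lt (h.nodup (hL.nodup_iff.2 List.nodup_range)) (h.lt hL) hi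

theorem Matches.invol {L : List ℕ} {P : List (ℕ × ℕ)} (h : Matches L P) {N : ℕ}
    (hL : L.Perm (List.range N)) : Function.Involutive (finPi N (piOf P)) :=
  finPi_invol (h.piOf_lt hL) (piOf_invol (h.nodup (hL.nodup_iff.2 List.nodup_range)))

lemma sorted_getElem {a : ℕ → ℕ} {L : List ℕ} (hs : L.Pairwise fun i j => a i ≤ a j)
    {x y : ℕ} (hxy : x ≤ y) (hy : y < L.length) : a (L[x]'(by omega)) ≤ a L[y] := by
  rcases hxy.eq_or_lt with rfl | h
  · exact le_rfl
  · exact List.pairwise_iff_getElem.1 hs x y (by omega) hy h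

/-- the median value separates the two ends of every pair -/
theorem Matches.thr {a : ℕ → ℕ} {L : List ℕ} {P : List (ℕ × ℕ)} (h : Matches L P) {N : ℕ}
    (hN : 0 < N) (hL : L.Perm (List.range N)) (hs : L.Pairwise fun i j => a i ≤ a j) :
    ∃ m < N, ∀ i < N, (a i ≤ a m ∧ a m ≤ a (piOf P i)) ∨ (a m ≤ a i ∧ a (piOf P i) ≤ a m) := by
  have hlen : L.length = N := by simpa using hL.length_eq
  have hm : L.length / 2 < L.length := by omega
  have hnd := h.nodup (hL.nodup_iff.2 List.nodup_range)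
  have lo : ∀ i ∈ lowHalf L, a i ≤ a L[L.length / 2] := by
    intro i hi
    obtain ⟨x, hx, rfl⟩ := List.mem_take_iff_getElem.1 hi
    exact sorted_getElem hs (by omega) hm
  have hi' : ∀ i ∈ highHalf L, a L[L.length / 2] ≤ a i := by
    intro i hi
    obtain ⟨x, hx, rfl⟩ := List.mem_drop_iff_getElem.1 hi
    exact sorted_getElem hs (by omega) (by omega)
  have pr : ∀ p ∈ P, a p.1 ≤ a L[L.length / 2] ∧ a L[L.length / 2] ≤ a p.2 := fun p hp =>
    ⟨lo _ (h.fst.mem_iff.1 (List.mem_map_of_mem hp)),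
      hi' _ (h.snd.mem_iff.1 (List.mem_map_of_mem hp))⟩
  refine ⟨L[L.length / 2], List.mem_range.1 (hL.mem_iff.1 (List.getElem_mem _)), fun i hi => ?_⟩
  rcases piOf_cases hnd i with ⟨h1, h2⟩ | h1 | h1
  · rw [h2]
    have h3 := mt h.ends_perm.mem_iff.2 h1
    obtain ⟨x, hx, rfl⟩ := List.getElem_of_mem (hL.mem_iff.2 (List.mem_range.2 hi))
    have hx1 : ¬ x < L.length / 2 := fun hlt => h3 (List.mem_append_left _
      (List.mem_take_iff_getElem.2 ⟨x, by omega, rfl⟩))
    have hx2 : ¬ (L.length + 1) / 2 ≤ x := fun hle => h3 (List.mem_append_right _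
      (List.mem_drop_iff_getElem.2 ⟨x - (L.length + 1) / 2, by omega, by
        congr 1; omega⟩))
    have : x = L.length / 2 := by omega
    subst this
    exact Or.inl ⟨le_rfl, le_rfl⟩
  · exact Or.inl (pr _ h1)
  · exact Or.inr ⟨(pr _ h1).2, (pr _ h1).1⟩

lemma prod_le_of_sides {x y δ M : ℝ} (hδ : 0 ≤ δ) (hx : x ≤ δ) (hy : -δ ≤ y)
    (hx' : |x| ≤ M) (hy' : |y| ≤ M) : x * y ≤ δ * M := by
  have hM : 0 ≤ M := (abs_nonneg _).trans hx'
  obtain ⟨a1, a2⟩ := abs_le.1 hx'
  obtain ⟨b1, b2⟩ := abs_le.1 hy'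
  rcases le_total 0 x with h1 | h1 <;> rcases le_total 0 y with h2 | h2 <;> nlinarith

/-- The threshold condition of the one-round lemma: the keys `a` approximate `c * w + b` within
`t`, the units are sorted by `a`, and `P` matches the two halves. -/
theorem Matches.split {a : ℕ → ℕ} {L : List ℕ} {P : List (ℕ × ℕ)} (h : Matches L P) {N : ℕ}
    (hN : 0 < N) (hL : L.Perm (List.range N)) (hs : L.Pairwise fun i j => a i ≤ a j)
    {w : Fin N → ℝ} (hw : ∀ i, |w i| ≤ 1) {c b t : ℝ} (hc : 0 < c)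
    (ha : ∀ i : Fin N, |(a i : ℝ) - (c * w i + b)| ≤ t) :
    ∃ η : ℝ, ∀ i, (w i - η) * (w (finPi N (piOf P) i) - η) ≤ t / c * (2 + t / c) := by
  obtain ⟨m, hm, hthr⟩ := h.thr hN hL hs
  have ht : 0 ≤ t := (abs_nonneg _).trans (ha ⟨m, hm⟩)
  have hδ : 0 ≤ t / c := by positivity
  set η : ℝ := ((a m : ℝ) - b) / c with hη
  have e1 : ∀ i : Fin N, a i ≤ a m → w i - η ≤ t / c := by
    intro i hi
    have h1 := (abs_le.1 (ha i)).1
    have h2 : (a i : ℝ) ≤ a m := by exact_mod_cast hi
    rw [hη, sub_le_iff_le_add, ← add_div, le_div_iff₀ hc]; linarith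
  have e2 : ∀ i : Fin N, a m ≤ a i → -(t / c) ≤ w i - η := by
    intro i hi
    have h1 := (abs_le.1 (ha i)).2
    have h2 : (a m : ℝ) ≤ a i := by exact_mod_cast hi
    rw [hη, le_sub_iff_add_le, ← neg_div, ← add_div, div_le_iff₀ hc]; linarith
  have e3 : ∀ i : Fin N, |w i - η| ≤ 2 + t / c := by
    intro i
    have h1 := e1 ⟨m, hm⟩ le_rfl
    have h2 := e2 ⟨m, hm⟩ le_rfl
    obtain ⟨h3, h4⟩ := abs_le.1 (hw i)
    obtain ⟨h5, h6⟩ := abs_le.1 (hw ⟨m, hm⟩)
    rw [abs_le]; constructor <;> linarith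
  refine ⟨η, fun i => ?_⟩
  have hv := finPi_val (h.piOf_lt hL) i
  rcases hthr i i.2 with ⟨h1, h2⟩ | ⟨h1, h2⟩
  · exact prod_le_of_sides hδ (e1 i h1) (e2 _ (by rw [hv]; exact h2)) (e3 _) (e3 _)
  · rw [mul_comm]
    exact prod_le_of_sides hδ (e1 _ (by rw [hv]; exact h2)) (e2 i h1) (e3 _) (e3 _)

/-! ### completing a partial matching by fake pairs -/

/-- real pairs plus the zip of the leftovers match the two halves -/
theorem matches_append_zip {L : List ℕ} {R : List (ℕ × ℕ)} {x y : List ℕ}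
    (hx : (R.map Prod.fst ++ x).Perm (lowHalf L)) (hy : (R.map Prod.snd ++ y).Perm (highHalf L)) :
    x.length = y.length ∧ Matches L (R ++ x.zip y) := by
  have h1 := hx.length_eq
  have h2 := hy.length_eq
  simp only [List.length_append, List.length_map, length_lowHalf, length_highHalf] at h1 h2
  have hxy : x.length = y.length := by omega
  refine ⟨hxy, ?_, ?_⟩
  · rw [List.map_append, List.map_fst_zip hxy.le]; exact hx
  · rw [List.map_append, List.map_snd_zip hxy.ge]; exact hy

/-- core's merge sort gives an admissible order -/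
theorem mergeSort_ok (a : ℕ → ℕ) (N : ℕ) :
    ((List.range N).mergeSort fun i j => decide (a i ≤ a j)).Perm (List.range N) ∧
      ((List.range N).mergeSort fun i j => decide (a i ≤ a j)).Pairwise fun i j => a i ≤ a j := by
  refine ⟨List.mergeSort_perm _ _, ?_⟩
  have := List.pairwise_mergeSort (le := fun i j => decide (a i ≤ a j))
    (fun x y z h1 h2 => by simp only [decide_eq_true_eq] at *; omega)
    (fun x y => by simp only [Bool.or_eq_true, decide_eq_true_eq]; omega) (List.range N)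
  simpa using this

end Crest.Agent.N325.Split
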