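import Mathlib

/-!
# Row 325, module M3: the potential argument of the KRV cut-matching game (helper12)

Framework free.  Units `i : ι`, a doubly stochastic matrix `F`, one round replaces `F` by
`step π F` for an involution `π` (fixed points and fake pairs allowed).
-/

set_option autoImplicit false
set_option linter.unusedSectionVars false

namespace Crest.Agent.N325.KRV

open Finset

variable {ι : Type} [Fintype ι] [DecidableEq ι]

/-- the sign of a random bit -/
def sg (b : Bool) : ℝ := if b then 1 else -1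

/-- doubly stochastic -/
structure DS (F : ι → ι → ℝ) : Prop where
  nonneg : ∀ i k, 0 ≤ F i k
  row : ∀ i, ∑ k, F i k = 1
  col : ∀ k, ∑ i, F i k = 1

/-- one lazy matching step -/
noncomputable def step (π : ι → ι) (F : ι → ι → ℝ) : ι → ι → ℝ :=
  fun i k => (F i k + F (π i) k) / 2

/-- the KRV potential -/
noncomputable def psi (F : ι → ι → ℝ) : ℝ := ∑ i, ∑ k, F i k ^ 2 - 1

/-- the random projection -/
noncomputable def proj (F : ι → ι → ℝ) (r : ι → Bool) (i : ι) : ℝ := ∑ k, F i k * sg (r k)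

/-- the walk matrix of a list of matchings, most recent first -/
noncomputable def walk : List (ι → ι) → ι → ι → ℝ
  | [] => fun i k => if i = k then 1 else 0
  | π :: l => step π (walk l)

lemma sg_sq (b : Bool) : sg b ^ 2 = 1 := by cases b <;> simp [sg]

lemma sg_mul_self (b : Bool) : sg b * sg b = 1 := by cases b <;> simp [sg]

lemma sg_not (b : Bool) : sg (!b) = - sg b := by cases b <;> simp [sg]

lemma abs_sg (b : Bool) : |sg b| = 1 := by cases b <;> simp [sg]

lemma sum_comp_invol {π : ι → ι} (hπ : Function.Involutive π) (g : ι → ℝ) :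
    ∑ i, g (π i) = ∑ i, g i := Equiv.sum_comp hπ.toPerm g

lemma DS.step {F : ι → ι → ℝ} (hF : DS F) {π : ι → ι} (hπ : Function.Involutive π) :
    DS (step π F) where
  nonneg i k := by
    have := hF.nonneg i k; have := hF.nonneg (π i) k
    unfold KRV.step; positivity
  row i := by
    unfold KRV.step
    rw [← sum_div, sum_add_distrib, hF.row, hF.row]; norm_num
  col k := by
    unfold KRV.step
    rw [← sum_div, sum_add_distrib, sum_comp_invol hπ (fun i => F i k), hF.col]; norm_num

lemma DS_walk (l : List (ι → ι)) (hl : ∀ π ∈ l, Function.Involutive π) : DS (walk l) := by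
  induction l with
  | nil =>
    refine ⟨fun i k => ?_, fun i => ?_, fun k => ?_⟩
    · unfold walk; split_ifs <;> norm_num
    · simp [walk]
    · simp [walk]
  | cons π l ih =>
    exact (ih fun p hp => hl p (List.mem_cons_of_mem _ hp)).step (hl π List.mem_cons_self)

lemma psi_walk_nil : psi (walk ([] : List (ι → ι))) = Fintype.card ι - 1 := by
  simp [psi, walk]

/-! ### K1: Hoeffding for signs -/

lemma sum_exp_sg (a : ι → ℝ) (t : ℝ) :
    ∑ r : ι → Bool, Real.exp (t * ∑ k, a k * sg (r k))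
      ≤ 2 ^ Fintype.card ι * Real.exp (t ^ 2 * (∑ k, a k ^ 2) / 2) := by
  have h1 : ∑ r : ι → Bool, Real.exp (t * ∑ k, a k * sg (r k))
      = ∏ k, ∑ b : Bool, Real.exp (t * (a k * sg b)) := by
    rw [Finset.prod_univ_sum]
    simp only [Fintype.piFinset_univ]
    refine sum_congr rfl fun r _ => ?_
    rw [mul_sum, Real.exp_sum]
  have h2 : (2 : ℝ) ^ Fintype.card ι * Real.exp (t ^ 2 * (∑ k, a k ^ 2) / 2)
      = ∏ k, (2 * Real.exp ((t * a k) ^ 2 / 2)) := by
    rw [prod_mul_distrib, prod_const, card_univ, ← Real.exp_sum]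
    congr 2
    rw [mul_sum, sum_div]
    exact sum_congr rfl fun k _ => by ring
  rw [h1, h2]
  refine prod_le_prod (fun k _ => by positivity) fun k _ => ?_
  have h := Real.cosh_le_exp_half_sq (t * a k)
  rw [Real.cosh_eq] at h
  simp only [Fintype.sum_bool, sg, if_true, mul_one, Bool.false_eq_true, if_false, mul_neg]
  linarith

theorem hoeff (a : ι → ℝ) {lam : ℝ} (hlam : 0 ≤ lam) :
    ((univ.filter fun r : ι → Bool =>
        2 * lam * ∑ k, a k ^ 2 < (∑ k, a k * sg (r k)) ^ 2).card : ℝ)
      ≤ 2 * Real.exp (-lam) * 2 ^ Fintype.card ι := by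
  set s : ℝ := ∑ k, a k ^ 2 with hs
  have hs0 : 0 ≤ s := sum_nonneg fun k _ => sq_nonneg _
  rcases hs0.eq_or_lt with h0 | hpos
  · have ha : ∀ k, a k = 0 := fun k => by
      have := (sum_eq_zero_iff_of_nonneg (fun k _ => sq_nonneg (a k))).1 h0.symm k (mem_univ _)
      simpa using this
    have : (univ.filter fun r : ι → Bool => 2 * lam * s < (∑ k, a k * sg (r k)) ^ 2) = ∅ := by
      ext r; simp [ha, ← h0]
    rw [this]; simp only [card_empty, Nat.cast_zero]; positivity
  set t : ℝ := Real.sqrt (2 * lam / s) with ht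
  have ht0 : 0 ≤ t := Real.sqrt_nonneg _
  have ht2 : t ^ 2 = 2 * lam / s := Real.sq_sqrt (by positivity)
  have hts : t ^ 2 * s / 2 = lam := by rw [ht2]; field_simp
  have e1 := sum_exp_sg a t
  have e2 := sum_exp_sg a (-t)
  rw [neg_sq] at e2
  rw [← hs, hts] at e1 e2
  have key : ∀ r : ι → Bool,
      (if 2 * lam * s < (∑ k, a k * sg (r k)) ^ 2 then Real.exp (2 * lam) else 0)
        ≤ Real.exp (t * ∑ k, a k * sg (r k)) + Real.exp (-t * ∑ k, a k * sg (r k)) := by
    intro r
    set X := ∑ k, a k * sg (r k)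
    have p1 := Real.exp_pos (t * X)
    have p2 := Real.exp_pos (-t * X)
    split_ifs with h
    · have h3 : (2 * lam) ^ 2 ≤ (t * X) ^ 2 := by
        rw [mul_pow t, ht2]
        have : (2 * lam) ^ 2 = 2 * lam / s * (2 * lam * s) := by field_simp
        rw [this]
        exact mul_le_mul_of_nonneg_left h.le (by positivity)
      have h4 : 2 * lam ≤ |t * X| := by
        have := sq_le_sq.1 h3
        rwa [abs_of_nonneg (by positivity)] at this
      rcases le_abs.1 h4 with h5 | h5
      · have := Real.exp_le_exp.2 h5; linarith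
      · have := Real.exp_le_exp.2 h5
        rw [show -t * X = -(t * X) by ring] at p2 ⊢; linarith
    · linarith
  have h5 := sum_le_sum (s := univ) fun r _ => key r
  rw [← sum_filter, sum_const, nsmul_eq_mul, sum_add_distrib] at h5
  have h6 : Real.exp (2 * lam) * Real.exp (-lam) = Real.exp lam := by
    rw [← Real.exp_add]; congr 1; ring
  have p := Real.exp_pos (2 * lam)
  refine le_of_mul_le_mul_right ?_ p
  calc _ ≤ 2 * (2 ^ Fintype.card ι * Real.exp lam) := by linarith
    _ = _ := by rw [← h6]; ring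

/-! ### second moments -/

lemma sum_sg_mul (k l : ι) :
    ∑ r : ι → Bool, sg (r k) * sg (r l) = if k = l then 2 ^ Fintype.card ι else 0 := by
  split_ifs with h
  · subst h; simp [sg_mul_self]
  · have hinv : Function.Involutive fun r : ι → Bool => Function.update r k (!r k) := by
      intro r; ext j
      by_cases hj : j = k
      · subst hj; simp
      · simp [hj]
    have h1 := Equiv.sum_comp hinv.toPerm fun r : ι → Bool => sg (r k) * sg (r l)
    have h2 : ∑ r : ι → Bool, sg (hinv.toPerm _ r k) * sg (hinv.toPerm _ r l)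
        = - ∑ r : ι → Bool, sg (r k) * sg (r l) := by
      rw [← sum_neg_distrib]
      refine sum_congr rfl fun r _ => ?_
      simp [Function.Involutive.coe_toPerm, Function.update_of_ne (Ne.symm h), sg_not]
    linarith

lemma sum_sq_sg (a : ι → ℝ) :
    ∑ r : ι → Bool, (∑ k, a k * sg (r k)) ^ 2 = 2 ^ Fintype.card ι * ∑ k, a k ^ 2 := by
  have : ∀ r : ι → Bool, (∑ k, a k * sg (r k)) ^ 2
      = ∑ k, ∑ l, a k * a l * (sg (r k) * sg (r l)) := by
    intro r
    rw [sq, sum_mul_sum]
    exact sum_congr rfl fun k _ => sum_congr rfl fun l _ => by ring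
  simp only [this]
  rw [sum_comm, mul_sum]
  refine sum_congr rfl fun k _ => ?_
  rw [sum_comm]
  simp only [← mul_sum, sum_sg_mul, mul_ite, mul_zero, sum_ite_eq, mem_univ, if_true]
  ring

lemma sum_sq_sub (u : ι → ℝ) :
    ∑ i, ∑ j, (u i - u j) ^ 2 = 2 * Fintype.card ι * ∑ i, u i ^ 2 - 2 * (∑ i, u i) ^ 2 := by
  have : ∀ i j, (u i - u j) ^ 2 = u i ^ 2 + u j ^ 2 - 2 * (u i * u j) := fun i j => by ring
  simp only [this, sum_sub_distrib, sum_add_distrib, sum_const, card_univ, nsmul_eq_mul,
    ← mul_sum, ← sum_mul]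
  ring

/-- the centred square sum of the projection -/
noncomputable def cen (F : ι → ι → ℝ) (r : ι → Bool) : ℝ :=
  ∑ i, proj F r i ^ 2 - (∑ i, proj F r i) ^ 2 / Fintype.card ι

lemma sum_proj {F : ι → ι → ℝ} (hF : DS F) (r : ι → Bool) :
    ∑ i, proj F r i = ∑ k, 1 * sg (r k) := by
  unfold proj
  rw [sum_comm]
  exact sum_congr rfl fun k _ => by rw [← sum_mul, hF.col]

lemma sum_cen [Nonempty ι] {F : ι → ι → ℝ} (hF : DS F) :
    ∑ r : ι → Bool, cen F r = 2 ^ Fintype.card ι * psi F := by
  have hN : (Fintype.card ι : ℝ) ≠ 0 := by exact_mod_cast Fintype.card_ne_zero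
  unfold cen psi
  simp only [sum_proj hF]
  rw [sum_sub_distrib, ← sum_div, sum_sq_sg, sum_comm]
  unfold proj
  simp only [sum_sq_sg, ← mul_sum]
  simp only [one_pow, sum_const, card_univ, nsmul_eq_mul, mul_one]
  field_simp

lemma abs_proj_le {F : ι → ι → ℝ} (hF : DS F) (r : ι → Bool) (i : ι) : |proj F r i| ≤ 1 := by
  unfold proj
  refine (abs_sum_le_sum_abs _ _).trans ?_
  rw [← hF.row i]
  refine sum_le_sum fun k _ => ?_
  rw [abs_mul, abs_sg, mul_one, abs_of_nonneg (hF.nonneg i k)]

lemma cen_le {F : ι → ι → ℝ} (hF : DS F) (r : ι → Bool) : cen F r ≤ Fintype.card ι := by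
  unfold cen
  have h1 : ∑ i, proj F r i ^ 2 ≤ ∑ _i : ι, (1 : ℝ) :=
    sum_le_sum fun i _ => by
      have := abs_proj_le hF r i
      rw [← sq_abs]; nlinarith [abs_nonneg (proj F r i)]
  have h2 : 0 ≤ (∑ i, proj F r i) ^ 2 / Fintype.card ι := by positivity
  simp only [sum_const, card_univ, nsmul_eq_mul, mul_one] at h1
  linarith

lemma cen_le_shift [Nonempty ι] (F : ι → ι → ℝ) (r : ι → Bool) (η : ℝ) :
    cen F r ≤ ∑ i, (proj F r i - η) ^ 2 := by
  have hN : (0 : ℝ) < Fintype.card ι := by exact_mod_cast Fintype.card_pos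
  unfold cen
  have : ∀ i, (proj F r i - η) ^ 2 = proj F r i ^ 2 - 2 * η * proj F r i + η ^ 2 :=
    fun i => by ring
  simp only [this, sum_sub_distrib, sum_add_distrib, sum_const, card_univ, nsmul_eq_mul,
    ← mul_sum]
  set S := ∑ i, proj F r i
  have : S ^ 2 / Fintype.card ι - 2 * η * S + Fintype.card ι * η ^ 2
      = (S - Fintype.card ι * η) ^ 2 / Fintype.card ι := by field_simp; ring
  have h2 : 0 ≤ (S - Fintype.card ι * η) ^ 2 / Fintype.card ι := by positivity
  linarith

lemma psi_step {F : ι → ι → ℝ} {π : ι → ι} (hπ : Function.Involutive π) :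
    psi (step π F) = psi F - (∑ i, ∑ k, (F i k - F (π i) k) ^ 2) / 4 := by
  unfold psi step
  have h1 : ∀ i k, ((F i k + F (π i) k) / 2) ^ 2
      = F i k ^ 2 / 2 + F (π i) k ^ 2 / 2 - (F i k - F (π i) k) ^ 2 / 4 := fun i k => by ring
  simp only [h1, sum_sub_distrib, sum_add_distrib, ← sum_div]
  rw [sum_comp_invol hπ fun i => ∑ k, F i k ^ 2]
  ring

lemma sum_row_sub {F : ι → ι → ℝ} (hF : DS F) :
    ∑ i, ∑ j, ∑ k, (F i k - F j k) ^ 2 = 2 * Fintype.card ι * psi F := by
  have : ∑ i, ∑ j, ∑ k, (F i k - F j k) ^ 2 = ∑ k, ∑ i, ∑ j, (F i k - F j k) ^ 2 := by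
    rw [sum_congr rfl fun i _ => sum_comm, sum_comm]
  rw [this]
  simp only [sum_sq_sub fun i => F i _, hF.col, sum_sub_distrib, ← mul_sum, sum_const,
    card_univ, nsmul_eq_mul]
  unfold psi
  rw [sum_comm]
  ring

lemma psi_nonneg [Nonempty ι] {F : ι → ι → ℝ} (hF : DS F) : 0 ≤ psi F := by
  have hN : (0 : ℝ) < Fintype.card ι := by exact_mod_cast Fintype.card_pos
  have h := sum_row_sub hF
  have h2 : 0 ≤ ∑ i, ∑ j, ∑ k, (F i k - F j k) ^ 2 := by positivity
  rw [h] at h2
  exact nonneg_of_mul_nonneg_right h2 (by positivity) |> fun h => by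
    nlinarith [h]

/-- all pairs of rows are projected without blow-up -/
def Good (lam : ℝ) (F : ι → ι → ℝ) (r : ι → Bool) : Prop :=
  ∀ i j, (proj F r i - proj F r j) ^ 2 ≤ 2 * lam * ∑ k, (F i k - F j k) ^ 2

open Classical in
lemma card_bad (F : ι → ι → ℝ) {lam : ℝ} (hlam : 0 ≤ lam) :
    ((univ.filter fun r : ι → Bool => ¬ Good lam F r).card : ℝ)
      ≤ Fintype.card ι ^ 2 * (2 * Real.exp (-lam) * 2 ^ Fintype.card ι) := by
  have hsub : (univ.filter fun r : ι → Bool => ¬ Good lam F r) ⊆
      (univ : Finset (ι × ι)).biUnion fun p => univ.filter fun r : ι → Bool =>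
        2 * lam * ∑ k, (F p.1 k - F p.2 k) ^ 2 < (∑ k, (F p.1 k - F p.2 k) * sg (r k)) ^ 2 := by
    intro r hr
    simp only [mem_filter, mem_univ, true_and, Good, not_forall, not_le] at hr
    obtain ⟨i, j, h⟩ := hr
    simp only [mem_biUnion, mem_univ, true_and, mem_filter]
    refine ⟨(i, j), ?_⟩
    simpa only [proj, sub_mul, sum_sub_distrib] using h
  have h1 := (card_le_card hsub).trans card_biUnion_le
  have h2 : ((univ.filter fun r : ι → Bool => ¬ Good lam F r).card : ℝ) ≤ _ := Nat.cast_le.2 h1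
  refine h2.trans ?_
  rw [Nat.cast_sum]
  refine (sum_le_sum fun p _ => hoeff (fun k => F p.1 k - F p.2 k) hlam).trans ?_
  simp only [sum_const, card_univ, Fintype.card_prod, nsmul_eq_mul, Nat.cast_mul]
  rw [sq]

/-- the matching `π` joins opposite sides of a threshold, up to `ε` -/
def Split (ε : ℝ) (u : ι → ℝ) (π : ι → ι) : Prop :=
  Function.Involutive π ∧ ∃ η : ℝ, ∀ i, (u i - η) * (u (π i) - η) ≤ ε

lemma psi_step_le {F : ι → ι → ℝ} {π : ι → ι} (hπ : Function.Involutive π) :
    psi (step π F) ≤ psi F := by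
  rw [psi_step hπ]
  have : 0 ≤ ∑ i, ∑ k, (F i k - F (π i) k) ^ 2 := by positivity
  linarith

lemma psi_step_good [Nonempty ι] {F : ι → ι → ℝ} {π : ι → ι} {r : ι → Bool} {lam ε : ℝ}
    (hlam : 0 < lam) (hg : Good lam F r) (hs : Split ε (proj F r) π) :
    psi (step π F) ≤ psi F - (cen F r - Fintype.card ι * ε) / (4 * lam) := by
  obtain ⟨hπ, η, hη⟩ := hs
  rw [psi_step hπ]
  have h1 : ∑ i, (proj F r i - proj F r (π i)) ^ 2
      ≤ 2 * lam * ∑ i, ∑ k, (F i k - F (π i) k) ^ 2 := by
    rw [mul_sum]; exact sum_le_sum fun i _ => hg i (π i)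
  have h2 : ∑ i, ((proj F r i - η) ^ 2 + (proj F r (π i) - η) ^ 2 - 2 * ε)
      ≤ ∑ i, (proj F r i - proj F r (π i)) ^ 2 :=
    sum_le_sum fun i _ => by nlinarith [hη i]
  rw [sum_sub_distrib, sum_add_distrib, sum_comp_invol hπ fun i => (proj F r i - η) ^ 2] at h2
  simp only [sum_const, card_univ, nsmul_eq_mul] at h2
  have h3 := cen_le_shift F r η
  have : (cen F r - Fintype.card ι * ε) / (4 * lam)
      ≤ (∑ i, ∑ k, (F i k - F (π i) k) ^ 2) / 4 := by
    rw [div_le_div_iff₀ (by positivity) (by positivity)]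
    nlinarith
  linarith

lemma cen_le_good [Nonempty ι] {F : ι → ι → ℝ} (hF : DS F) {r : ι → Bool} {lam : ℝ}
    (hg : Good lam F r) : cen F r ≤ 2 * lam * psi F := by
  have hN : (0 : ℝ) < Fintype.card ι := by exact_mod_cast Fintype.card_pos
  have h1 : ∑ i, ∑ j, (proj F r i - proj F r j) ^ 2
      ≤ 2 * lam * ∑ i, ∑ j, ∑ k, (F i k - F j k) ^ 2 := by
    rw [mul_sum]
    refine sum_le_sum fun i _ => ?_
    rw [mul_sum]
    exact sum_le_sum fun j _ => hg i j
  rw [sum_sq_sub, sum_row_sub hF] at h1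
  unfold cen
  rw [sub_le_iff_le_add, ← sub_le_iff_le_add', le_div_iff₀ hN]
  nlinarith

/-! ### K2: one round -/

/-- One round of the game.  `g r` is the potential after the round: at most `0` when the game
has stopped, else at most the potential after a step along a matching that splits the projection. -/
theorem round [Nonempty ι] {F : ι → ι → ℝ} (hF : DS F) {lam ε : ℝ} (hlam : 0 < lam) (hε : 0 ≤ ε)
    (g : (ι → Bool) → ℝ)
    (hg : ∀ r, g r ≤ 0 ∨ ∃ π, Split ε (proj F r) π ∧ g r ≤ psi (step π F)) :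
    ∑ r, g r ≤ 2 ^ Fintype.card ι * ((1 - 1 / (4 * lam)) * psi F
      + (Fintype.card ι * ε + 2 * Fintype.card ι ^ 3 * Real.exp (-lam)) / (4 * lam)) := by
  classical
  have hN : (0 : ℝ) < Fintype.card ι := by exact_mod_cast Fintype.card_pos
  have hψ := psi_nonneg hF
  have key : ∀ r, g r ≤ psi F - (cen F r - Fintype.card ι * ε) / (4 * lam)
      + (if ¬ Good lam F r then (Fintype.card ι : ℝ) else 0) / (4 * lam) := by
    intro r
    have hc := cen_le hF r
    have hNε : 0 ≤ (Fintype.card ι : ℝ) * ε := by positivity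
    by_cases hG : Good lam F r
    · simp only [hG, not_true, if_false, zero_div, add_zero]
      rcases hg r with h | ⟨π, hs, h⟩
      · have h1 := cen_le_good hF hG
        have : (cen F r - Fintype.card ι * ε) / (4 * lam) ≤ psi F := by
          rw [div_le_iff₀ (by positivity)]; nlinarith
        linarith
      · exact h.trans (psi_step_good hlam hG hs)
    · simp only [hG, not_false_eq_true, if_true]
      have h1 : g r ≤ psi F := by
        rcases hg r with h | ⟨π, hs, h⟩
        · linarith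
        · exact h.trans (psi_step_le hs.1)
      have : (cen F r - Fintype.card ι * ε) / (4 * lam) ≤ Fintype.card ι / (4 * lam) :=
        div_le_div_of_nonneg_right (by linarith) (by positivity)
      linarith
  refine (sum_le_sum fun r _ => key r).trans ?_
  rw [sum_add_distrib, sum_sub_distrib, ← sum_div, ← sum_div, sum_sub_distrib, sum_cen hF,
    ← sum_filter]
  simp only [sum_const, card_univ, nsmul_eq_mul, Fintype.card_fun, Fintype.card_bool,
    Nat.cast_pow, Nat.cast_ofNat]
  have hb := card_bad F hlam.le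
  have h3 : ((univ.filter fun r : ι → Bool => ¬ Good lam F r).card : ℝ) * Fintype.card ι / (4 * lam)
      ≤ 2 ^ Fintype.card ι * (2 * Fintype.card ι ^ 3 * Real.exp (-lam)) / (4 * lam) := by
    refine div_le_div_of_nonneg_right ?_ (by positivity)
    nlinarith
  have e : (2 : ℝ) ^ Fintype.card ι * ((1 - 1 / (4 * lam)) * psi F
      + (Fintype.card ι * ε + 2 * Fintype.card ι ^ 3 * Real.exp (-lam)) / (4 * lam))
      = 2 ^ Fintype.card ι * psi F
        - (2 ^ Fintype.card ι * psi F - 2 ^ Fintype.card ι * (Fintype.card ι * ε)) / (4 * lam)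
        + 2 ^ Fintype.card ι * (2 * Fintype.card ι ^ 3 * Real.exp (-lam)) / (4 * lam) := by ring
  rw [e]
  linarith

end Crest.Agent.N325.KRV
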