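import Crest.Agent.N325.M3.Split

/-!
# Row 325, module M3 (C): from the expansion of the matchings to the certificate (helper12)
-/

set_option autoImplicit false

namespace Crest.Agent.N325.Split

open Finset

/-- pairs from `U` to its complement plus pairs from the complement to `U` -/
def crossN (U : ℕ → Prop) [DecidablePred U] (P : List (ℕ × ℕ)) : ℕ :=
  P.countP (fun p => decide (U p.1 ∧ ¬ U p.2)) + P.countP (fun p => decide (¬ U p.1 ∧ U p.2))

lemma crossN_append (U : ℕ → Prop) [DecidablePred U] (P Q : List (ℕ × ℕ)) :
    crossN U (P ++ Q) = crossN U P + crossN U Q := by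
  simp only [crossN, List.countP_append]; omega

lemma crossN_le_ends (U : ℕ → Prop) [DecidablePred U] (P : List (ℕ × ℕ)) :
    crossN U P ≤ (ends P).countP fun i => decide (U i) := by
  simp only [crossN, ends, List.countP_append, List.countP_map]
  refine Nat.add_le_add (List.countP_mono_left fun p _ h => ?_)
    (List.countP_mono_left fun p _ h => ?_)
  · simp only [decide_eq_true_eq, Function.comp] at *; exact h.1
  · simp only [decide_eq_true_eq, Function.comp] at *; exact h.2

lemma crossN_eq_countP (U : ℕ → Prop) [DecidablePred U] (P : List (ℕ × ℕ)) :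
    crossN U P = P.countP fun p => decide (U p.1) != decide (U p.2) := by
  induction P with
  | nil => rfl
  | cons p P ih =>
    rw [List.countP_cons, ← ih]
    simp only [crossN, List.countP_cons]
    by_cases h1 : U p.1 <;> by_cases h2 : U p.2 <;>
      simp only [h1, h2, not_true, not_false_eq_true, and_true, and_false, and_self,
        decide_true, decide_false, bne_self_eq_false, Bool.true_bne, Bool.false_bne,
        Bool.not_false, if_true, Bool.false_eq_true, if_false] <;> omega

lemma card_filter_toFinset_le {α : Type} [DecidableEq α] (P : List α) (q : α → Prop)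
    [DecidablePred q] : (P.toFinset.filter q).card ≤ P.countP fun x => decide (q x) := by
  rw [List.countP_eq_length_filter]
  refine le_trans (le_of_eq ?_) (List.toFinset_card_le (P.filter fun x => decide (q x)))
  congr 1
  ext x; simp

/-- units of `U` sent outside `U` are ends of crossing pairs -/
theorem card_cross_le {P : List (ℕ × ℕ)} (hnd : (ends P).Nodup) {N : ℕ}
    (hlt : ∀ i < N, piOf P i < N) (U : ℕ → Prop) [DecidablePred U] (S : Finset (Fin N))
    (hS : ∀ i : Fin N, i ∈ S ↔ U i) :
    (S.filter fun i => finPi N (piOf P) i ∉ S).card ≤ crossN U P := by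
  classical
  set A := (P.toFinset.filter fun p => U p.1 ∧ ¬ U p.2).image Prod.fst
  set B := (P.toFinset.filter fun p => ¬ U p.1 ∧ U p.2).image Prod.snd
  have hsub : (S.filter fun i => finPi N (piOf P) i ∉ S).map Fin.valEmbedding ⊆ A ∪ B := by
    intro x hx
    obtain ⟨i, hi, rfl⟩ := mem_map.1 hx
    obtain ⟨h1, h2⟩ := mem_filter.1 hi
    rw [hS] at h1 h2
    rw [finPi_val hlt] at h2
    rcases piOf_cases hnd i with ⟨_, h3⟩ | h3 | h3
    · exact absurd (h3.symm ▸ h1) h2
    · exact mem_union_left _ (mem_image.2 ⟨_, mem_filter.2 ⟨List.mem_toFinset.2 h3, h1, h2⟩, rfl⟩)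
    · exact mem_union_right _ (mem_image.2 ⟨_, mem_filter.2 ⟨List.mem_toFinset.2 h3, h2, h1⟩, rfl⟩)
  have h := card_le_card hsub
  rw [card_map] at h
  refine h.trans ((card_union_le _ _).trans (Nat.add_le_add ?_ ?_))
  · exact card_image_le.trans (card_filter_toFinset_le P _)
  · exact card_image_le.trans (card_filter_toFinset_le P _)

/-- One round: real pairs, fake pairs. -/
abbrev Rnd := List (ℕ × ℕ) × List (ℕ × ℕ)

/-- the matching of a round -/
def Rnd.pi (N : ℕ) (ρ : Rnd) : Fin N → Fin N := finPi N (piOf (ρ.1 ++ ρ.2))

/-- all ends of fake pairs -/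
def fakeEnds (l : List Rnd) : List ℕ := l.flatMap fun ρ => ends ρ.2

/-- Sum over the rounds: crossings of the matchings are paid by real crossings and fake ends. -/
theorem sum_cross_le {N : ℕ} (l : List Rnd)
    (hnd : ∀ ρ ∈ l, (ends (ρ.1 ++ ρ.2)).Nodup ∧ ∀ i < N, piOf (ρ.1 ++ ρ.2) i < N)
    (U : ℕ → Prop) [DecidablePred U] (S : Finset (Fin N)) (hS : ∀ i : Fin N, i ∈ S ↔ U i)
    {c : ℕ} (hc : ∀ ρ ∈ l, crossN U ρ.1 ≤ c) :
    ((l.map (Rnd.pi N)).map fun π => (S.filter fun i => π i ∉ S).card).sum
      ≤ l.length * c + (fakeEnds l).countP fun i => decide (U i) := by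
  induction l with
  | nil => simp
  | cons ρ l ih =>
    have h1 := ih (fun x hx => hnd x (List.mem_cons_of_mem _ hx))
      (fun x hx => hc x (List.mem_cons_of_mem _ hx))
    have h2 := card_cross_le (hnd ρ List.mem_cons_self).1 (hnd ρ List.mem_cons_self).2 U S hS
    rw [crossN_append] at h2
    have h3 := hc ρ List.mem_cons_self
    have h4 := crossN_le_ends U ρ.2
    simp only [fakeEnds, List.map_cons, List.sum_cons, List.length_cons, List.flatMap_cons,
      List.countP_append, Rnd.pi] at *
    nlinarith

/-- The certificate on units: if the matchings expand, every set of at most half of the units is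
paid by `2 T c` plus twice its fake ends. -/
theorem cert_units {N : ℕ} (l : List Rnd)
    (hnd : ∀ ρ ∈ l, (ends (ρ.1 ++ ρ.2)).Nodup ∧ ∀ i < N, piOf (ρ.1 ++ ρ.2) i < N)
    (hmix : ∀ S : Finset (Fin N), 2 * S.card ≤ N →
      S.card ≤ 2 * ((l.map (Rnd.pi N)).map fun π => (S.filter fun i => π i ∉ S).card).sum)
    (U : ℕ → Prop) [DecidablePred U] {c : ℕ} (hc : ∀ ρ ∈ l, crossN U ρ.1 ≤ c)
    (hhalf : 2 * (List.range N).countP (fun i => decide (U i)) ≤ N) :
    (List.range N).countP (fun i => decide (U i))
      ≤ 2 * l.length * c + 2 * (fakeEnds l).countP fun i => decide (U i) := by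
  set S : Finset (Fin N) := univ.filter fun i => U i with hSdef
  have hS : ∀ i : Fin N, i ∈ S ↔ U i := fun i => by simp [hSdef]
  have hcard : S.card = (List.range N).countP (fun i => decide (U i)) := by
    rw [← card_map Fin.valEmbedding, List.countP_eq_length_filter,
      ← List.toFinset_card_of_nodup (List.nodup_range.filter _)]
    congr 1
    ext x
    simp only [mem_map, hS, Fin.valEmbedding_apply, List.mem_toFinset, List.mem_filter,
      List.mem_range, decide_eq_true_eq]
    constructor
    · rintro ⟨i, hi, rfl⟩; exact ⟨i.2, hi⟩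
    · rintro ⟨h1, h2⟩; exact ⟨⟨x, h1⟩, h2, rfl⟩
  have h1 := hmix S (by rwa [hcard])
  have h2 := sum_cross_le l hnd U S hS hc
  rw [← hcard]
  nlinarith

lemma length_fakeEnds_le (l : List Rnd) {b : ℕ} (hb : ∀ ρ ∈ l, ρ.2.length ≤ b) :
    (fakeEnds l).length ≤ 2 * l.length * b := by
  induction l with
  | nil => simp [fakeEnds]
  | cons ρ l ih =>
    have h1 := ih fun x hx => hb x (List.mem_cons_of_mem _ hx)
    have h2 := hb ρ List.mem_cons_self
    simp only [fakeEnds, ends, List.flatMap_cons, List.length_append, List.length_map,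
      List.length_cons] at *
    nlinarith

/-! ### units as blocks of vertices -/

/-- the vertex of every unit: `μ v` copies of `v` -/
def unitList (X : List ℕ) (μ : ℕ → ℕ) : List ℕ := X.flatMap fun v => List.replicate (μ v) v

lemma countP_unitList (X : List ℕ) (μ : ℕ → ℕ) (S : ℕ → Prop) [DecidablePred S] :
    (unitList X μ).countP (fun v => decide (S v))
      = ((X.filter fun v => decide (S v)).map μ).sum := by
  induction X with
  | nil => rfl
  | cons v X ih =>
    simp only [unitList, List.flatMap_cons, List.countP_append, List.countP_replicate,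
      List.filter_cons] at *
    by_cases h : S v <;> simp [h, ih]

lemma length_unitList (X : List ℕ) (μ : ℕ → ℕ) : (unitList X μ).length = (X.map μ).sum := by
  induction X with
  | nil => rfl
  | cons v X ih => simp only [unitList, List.flatMap_cons, List.length_append,
      List.length_replicate, List.map_cons, List.sum_cons] at *; rw [ih]

lemma countP_range_getD (u : List ℕ) (q : ℕ → Bool) :
    (List.range u.length).countP (fun i => q (u.getD i 0)) = u.countP q := by
  have h : (List.range u.length).map (fun i => u.getD i 0) = u := by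
    refine List.ext_getElem (by simp) fun i h1 h2 => ?_
    simp [List.getD_eq_getElem?_getD, h2]
  conv_rhs => rw [← h, List.countP_map]
  rfl

/-- counting a list by the vertex classes -/
lemma countP_mem_eq_sum (e : List ℕ) (loc : ℕ → ℕ) (S : Finset ℕ) :
    e.countP (fun i => decide (loc i ∈ S)) = ∑ v ∈ S, e.countP fun i => decide (loc i = v) := by
  induction e with
  | nil => simp
  | cons i e ih =>
    simp only [List.countP_cons, ih, sum_add_distrib, decide_eq_true_eq, sum_ite_eq]

end Crest.Agent.N325.Split
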