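import Crest.Agent.N325.M3.Cert

/-!
# Row 325, module M3: the result line of the cut-matching game (helper12)
-/

set_option autoImplicit false

namespace Crest.Agent.N325.Split

open Finset

/-- answer of the matching player: real pairs, leftover low units, leftover high units -/
abbrev Out := List (ℕ × ℕ) × List ℕ × List ℕ

/-- real pairs and fake pairs -/
def Out.pairs (o : Out) : List (ℕ × ℕ) := o.1 ++ o.2.1.zip o.2.2

/-- the matching on `Fin N` -/
def Out.pi (N : ℕ) (o : Out) : Fin N → Fin N := finPi N (piOf o.pairs)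

/-- the vertices of the fake ends -/
def Out.fk (loc : ℕ → ℕ) (o : Out) : List ℕ := (o.2.1 ++ o.2.2).map loc

/-- the answer covers the two halves of `L` -/
structure Covers (L : List ℕ) (o : Out) : Prop where
  fst : (o.1.map Prod.fst ++ o.2.1).Perm (lowHalf L)
  snd : (o.1.map Prod.snd ++ o.2.2).Perm (highHalf L)

lemma Covers.len {L : List ℕ} {o : Out} (h : Covers L o) : o.2.1.length = o.2.2.length :=
  (matches_append_zip h.fst h.snd).1

lemma Covers.matches {L : List ℕ} {o : Out} (h : Covers L o) : Matches L o.pairs :=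
  (matches_append_zip h.fst h.snd).2

lemma Covers.invol {L : List ℕ} {o : Out} (h : Covers L o) {N : ℕ}
    (hL : L.Perm (List.range N)) : Function.Involutive (o.pi N) := h.matches.invol hL

lemma Covers.piOf_lt {L : List ℕ} {o : Out} (h : Covers L o) {N : ℕ}
    (hL : L.Perm (List.range N)) : ∀ i < N, piOf o.pairs i < N := h.matches.piOf_lt hL

lemma Covers.pi_val {L : List ℕ} {o : Out} (h : Covers L o) {N : ℕ}
    (hL : L.Perm (List.range N)) (i : Fin N) : (o.pi N i : ℕ) = piOf o.pairs i :=
  finPi_val (h.piOf_lt hL) i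

lemma Covers.length_pairs {L : List ℕ} {o : Out} (h : Covers L o) :
    o.pairs.length = L.length / 2 := by
  have := h.matches.fst.length_eq
  rwa [List.length_map, length_lowHalf] at this

lemma Covers.length_fk {L : List ℕ} {o : Out} (h : Covers L o) (loc : ℕ → ℕ) :
    (o.fk loc).length = 2 * o.2.1.length := by
  simp only [Out.fk, List.length_map, List.length_append, ← h.len]; omega

/-- threshold condition of the one-round lemma -/
theorem Covers.split {a : ℕ → ℕ} {L : List ℕ} {o : Out} (h : Covers L o) {N : ℕ}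
    (hN : 0 < N) (hL : L.Perm (List.range N)) (hs : L.Pairwise fun i j => a i ≤ a j)
    {w : Fin N → ℝ} (hw : ∀ i, |w i| ≤ 1) {c b t : ℝ} (hc : 0 < c)
    (ha : ∀ i : Fin N, |(a i : ℝ) - (c * w i + b)| ≤ t) :
    ∃ η : ℝ, ∀ i, (w i - η) * (w (o.pi N i) - η) ≤ t / c * (2 + t / c) :=
  h.matches.split hN hL hs hw hc ha

lemma length_flatMap_fk_le {l : List Out} (loc : ℕ → ℕ) {z : ℕ}
    (hl : ∀ o ∈ l, (∃ L, Covers L o) ∧ o.2.1.length ≤ z) :
    (l.flatMap (Out.fk loc)).length ≤ 2 * l.length * z := by
  induction l with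
  | nil => simp
  | cons o l ih =>
    have h1 := ih fun x hx => hl x (List.mem_cons_of_mem _ hx)
    obtain ⟨⟨L, hL⟩, h2⟩ := hl o List.mem_cons_self
    have h3 := hL.length_fk loc
    simp only [List.flatMap_cons, List.length_append, List.length_cons]
    nlinarith

/-- **Result line.**  If the matchings of the rounds expand, every vertex set with at most half
of the units is paid by `2 T c` and twice its fake ends. -/
theorem cert_result {N : ℕ} (loc : ℕ → ℕ) (l : List Out)
    (hl : ∀ o ∈ l, ∃ L, L.Perm (List.range N) ∧ Covers L o)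
    (hmix : ∀ S : Finset (Fin N), 2 * S.card ≤ N →
      S.card ≤ 2 * ((l.map (Out.pi N)).map fun π => (S.filter fun i => π i ∉ S).card).sum)
    (U : Finset ℕ) {c : ℕ}
    (hc : ∀ o ∈ l, o.1.countP (fun p => decide (loc p.1 ∈ U) != decide (loc p.2 ∈ U)) ≤ c)
    (hhalf : 2 * (List.range N).countP (fun i => decide (loc i ∈ U)) ≤ N) :
    (List.range N).countP (fun i => decide (loc i ∈ U))
      ≤ 2 * l.length * c + 2 * (l.flatMap (Out.fk loc)).countP fun v => decide (v ∈ U) := by
  have h := cert_units (N := N) (l.map fun o => (o.1, o.2.1.zip o.2.2)) ?_ ?_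
    (fun i => loc i ∈ U) (c := c) ?_ hhalf
  · rw [List.length_map] at h
    refine h.trans (le_of_eq ?_)
    congr 2
    clear h hmix hc
    induction l with
    | nil => rfl
    | cons o l ih =>
      obtain ⟨L, -, hL⟩ := hl o List.mem_cons_self
      have := ih fun x hx => hl x (List.mem_cons_of_mem _ hx)
      simp only [fakeEnds, List.map_cons, List.flatMap_cons, List.countP_append] at this ⊢
      rw [this, ends, List.map_fst_zip hL.len.le, List.map_snd_zip hL.len.ge, Out.fk,
        List.countP_map]
      rfl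
  · intro ρ hρ
    obtain ⟨o, ho, rfl⟩ := List.mem_map.1 hρ
    obtain ⟨L, h1, h2⟩ := hl o ho
    exact ⟨h2.matches.nodup (h1.nodup_iff.2 List.nodup_range), h2.piOf_lt h1⟩
  · intro S hS
    have := hmix S hS
    rwa [List.map_map (g := Rnd.pi N)]
  · intro ρ hρ
    obtain ⟨o, ho, rfl⟩ := List.mem_map.1 hρ
    rw [crossN_eq_countP]
    exact hc o ho

/-- the number of units located in `U` is the measure of `U`, for the block layout -/
theorem units_in (X : List ℕ) (hX : X.Nodup) (μ : ℕ → ℕ) (U : Finset ℕ) :
    (List.range (unitList X μ).length).countP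
        (fun i => decide ((unitList X μ).getD i 0 ∈ U)) = ∑ v ∈ X.toFinset ∩ U, μ v := by
  rw [countP_range_getD (unitList X μ) fun v => decide (v ∈ U), countP_unitList X μ (· ∈ U),
    ← List.sum_toFinset _ (hX.filter _)]
  congr 1
  ext v; simp

end Crest.Agent.N325.Split
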