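import Crest.Agent.N325.M3.CertR
import Crest.Agent.N325.Lst.SortR

/-!
# Row 325, module M3: the programs for the median split and the matching array (helper12)
-/

set_option autoImplicit false

namespace Crest.Agent.N325.Split

variable {g : Gl}

lemma finPi_congr {N : ℕ} {f f' : ℕ → ℕ} (h : ∀ i < N, f i = f' i) : finPi N f = finPi N f' := by
  funext i
  simp only [finPi, h i i.2]

lemma foldl_pi {P : List (ℕ × ℕ)} (h : (ends P).Nodup) (a : Arr ℕ) (i : ℕ) :
    (P.foldl (fun (s : Arr ℕ) p => (s.set p.1 p.2).set p.2 p.1) a).get i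
      = if i ∈ ends P then piOf P i else a.get i := by
  induction P generalizing a with
  | nil => simp [ends]
  | cons p P ih =>
    obtain ⟨h1, h2, h3, h4⟩ := nodup_ends_cons h
    rw [List.foldl_cons, ih h4]
    simp only [(ends_cons_perm p P).mem_iff, List.mem_cons, piOf, Function.update_apply,
      Arr.get_set]
    by_cases a1 : i = p.2
    · subst a1; simp [h3]
    · by_cases a2 : i = p.1
      · subst a2; simp [h2, h1]
      · simp [a1, a2]

/-- the array of the involution of a list of pairs on `[0, N)` -/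
def piArr (N : ℕ) (P : List (ℕ × ℕ)) : R (Arr ℕ) :=
  tabP (fun i => i) N (Arr.cst 0) >>= foldP (fun p s => (s.set p.1 p.2).set p.2 p.1) P

theorem sp_piArr (N : ℕ) {P : List (ℕ × ℕ)} (h : (ends P).Nodup) :
    Sp g (piArr N P) fun r t => (∀ i < N, r.get i = piOf P i) ∧ t = N + P.length + 2 :=
  (sp_tabP _ N _).bind fun a t k => (sp_foldP _ P a).mono fun r u k' =>
    ⟨fun i hi => by
      rw [k'.1, foldl_pi h, k.1, if_pos hi]
      split_ifs with e
      · rfl
      · exact (piOf_of_notMem e).symm, by rw [k.2, k'.2]; omega⟩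

/-- sort the units `0, …, N-1` by a key at most `M` and return the two halves -/
def halvesR (key : ℕ → ℕ) (M N : ℕ) : R (List ℕ × List ℕ) :=
  rangeL N 0 >>= fun l => sortL key M l >>= fun L =>
    takeL (N / 2) L >>= fun A => dropL ((N + 1) / 2) L >>= fun B => pure (A, B)

theorem sp_halvesR (key : ℕ → ℕ) {M N : ℕ} (hM : ∀ i < N, key i ≤ M) (hX : 2 * M ≤ g.X) :
    Sp g (halvesR key M N) fun r t => (∃ L, L.Perm (List.range N) ∧
      L.Pairwise (fun i j => key i ≤ key j) ∧ r = (lowHalf L, highHalf L)) ∧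
      t ≤ (M.size + 1) * (6 * N + 7) := by
  refine (sp_rangeL_zero N).bind fun l t0 k0 => ?_
  refine (sp_sortL key (l := l) (fun x hx => hM x (by simpa [k0.1] using hx)) hX).bind
    fun L t1 k1 => (sp_takeL _ _).bind fun A t2 k2 => (sp_dropL _ _).bind fun B t3 k3 => ?_
  have hl : l.length = N := by simp [k0.1]
  have hL : L.length = N := k1.1.length_eq.trans hl
  refine ⟨⟨L, k0.1 ▸ k1.1, k1.2.1, by rw [k2.1, k3.1, lowHalf, highHalf, hL]⟩, ?_⟩
  have := k0.2; have := k1.2.2; have := k2.2; have := k3.2
  rw [hl] at *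
  rw [add_mul]; omega

/-- real and fake pairs -/
def pairsR (o : Split.Out) : R (List (ℕ × ℕ)) := zipL o.2.1 o.2.2 >>= appL o.1

theorem sp_pairsR (o : Split.Out) :
    Sp g (pairsR o) fun r t => r = o.pairs ∧ t ≤ 2 * (o.1.length + o.2.1.length) + 4 :=
  (sp_zipL _ _).bind fun z t k => (sp_appL _ z).mono fun r u k' =>
    ⟨by rw [k'.1, k.1, Out.pairs], by have := k.2; have := k'.2; omega⟩

/-- the array of the matching of an answer -/
def piR (N : ℕ) (o : Split.Out) : R (Arr ℕ) := pairsR o >>= piArr N

theorem sp_piR {N : ℕ} {L : List ℕ} {o : Split.Out} (h : Covers L o)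
    (hL : L.Perm (List.range N)) :
    Sp g (piR N o) fun r t => (∀ i < N, r.get i = piOf o.pairs i) ∧ (∀ i < N, r.get i < N) ∧
      finPi N r.get = o.pi N ∧ t ≤ 3 * N + 6 := by
  refine (sp_pairsR o).bind fun P t k => ?_
  have hnd := h.matches.nodup (hL.nodup_iff.2 List.nodup_range)
  rw [k.1]
  refine (sp_piArr N hnd).mono fun r u k' => ⟨k'.1, fun i hi => ?_, finPi_congr k'.1, ?_⟩
  · rw [k'.1 i hi]; exact h.piOf_lt hL i hi
  · have h1 := h.length_pairs
    have h2 := h.fst.length_eq
    have h3 : L.length = N := by simpa using hL.length_eq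
    simp only [List.length_append, List.length_map, length_lowHalf] at h2
    have := k.2; have := k'.2
    omega

/-- prepend the vertices of the fake ends of an answer (in some order) -/
def fkR (loc : ℕ → ℕ) (o : Split.Out) (acc : List ℕ) : R (List ℕ) :=
  foldP (fun i s => loc i :: s) o.2.1 acc >>= foldP (fun i s => loc i :: s) o.2.2

theorem sp_fkR (loc : ℕ → ℕ) (o : Split.Out) (acc : List ℕ) :
    Sp g (fkR loc o acc) fun r t => r.Perm (o.fk loc ++ acc) ∧
      t = o.2.1.length + o.2.2.length + 2 :=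
  (sp_foldP _ _ acc).bind fun a t k => (sp_foldP _ _ a).mono fun r u k' => by
    rw [foldl_cons_map] at k k'
    refine ⟨?_, by rw [k.2, k'.2]; omega⟩
    rw [k'.1, k.1, Out.fk, List.map_append, ← List.append_assoc]
    exact List.Perm.append_right _ (List.perm_append_comm.trans
      ((List.reverse_perm _).append (List.reverse_perm _)))

/-- the unit list of a measure -/
def unitR (X : List ℕ) (μ : ℕ → ℕ) : R (List ℕ) := flatMapL (fun v => replL (μ v) v []) X

theorem sp_unitR (X : List ℕ) (μ : ℕ → ℕ) :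
    Sp g (unitR X μ) fun r t => r = unitList X μ ∧ t ≤ 3 * (X.map μ).sum + 3 * X.length + 2 :=
  (sp_flatMapL (fun v => List.replicate (μ v) v) (fun v => μ v + 1)
    fun v _ => (sp_replL (μ v) v []).mono fun r t k => ⟨by rw [k.1]; simp, k.2.le⟩).mono
    fun r t k => ⟨k.1, by
      have h := k.2
      have e := length_unitList X μ
      rw [unitList] at e
      simp only [List.sum_map_add, List.map_const', List.sum_replicate, smul_eq_mul, e] at h
      omega⟩

end Crest.Agent.N325.Split
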