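import Crest.Agent.N325.M3.Game
import Crest.Agent.N325.M3.SplitR

/-!
# Row 325, module M3: the game on a weighted vertex list (helper29)

`mp loc A B` is the matching player on the units `A`, `B` located by `loc`.
-/

set_option autoImplicit false

namespace Crest.Agent.N325.M3

open Crest.Agent.N325.Split

variable {β : Type} {g : Gl}

/-- median split, then the matching player -/
def play (mp : List ℕ → List ℕ → R (β ⊕ Split.Out)) (N Sc : ℕ) (a : Arr ℕ) : R (β ⊕ Split.Out) :=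
  halvesR a.get Sc N >>= fun q => mp q.1 q.2

theorem subs_play {C : Ctx β} {mp : List ℕ → List ℕ → R (β ⊕ Split.Out)} {Sc cm : ℕ}
    (hX : 2 * Sc ≤ g.X) (hm : ∀ L, L.Perm (List.range C.N) →
      Sp g (mp (lowHalf L) (highHalf L)) fun o t => C.Good L o ∧ t ≤ cm) :
    Subs C g (play mp C.N Sc) (piR C.N) Sc ((Sc.size + 1) * (6 * C.N + 7) + cm) where
  hpl a ha := (sp_halvesR a.get (fun i _ => ha i) hX).bind fun q t k => by
    obtain ⟨⟨L, h1, h2, rfl⟩, c⟩ := k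
    exact (hm L h1).mono fun o s k => ⟨⟨L, h1, h2, k.1⟩, by have := k.2; omega⟩
  hpia L o h1 h2 := (sp_piR h2 h1).mono fun π t k => ⟨⟨k.2.1, k.2.2.1⟩, by
    have := k.2.2.2; rw [add_mul]; omega⟩

/-- the array of the vertices of the units -/
def locOf (X : List ℕ) (μ : ℕ → ℕ) : Arr ℕ := ⟨fun i => (unitList X μ).getD i 0⟩

/-- the context of the game on `X` with the measure `μ` -/
def ctxOf (X : List ℕ) (μ : ℕ → ℕ) (z : ℕ) (c : Finset ℕ → ℕ) (ok : β → Prop) : Ctx β :=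
  ⟨locOf X μ, (X.map μ).sum, z, c, ok⟩

/-- **a fresh cluster**: `z`, `c`, `ok` are ghost data -/
def fresh (mp : Arr ℕ → List ℕ → List ℕ → R (β ⊕ Split.Out)) (z : ℕ) (c : Finset ℕ → ℕ)
    (ok : β → Prop) (X : List ℕ) (μ : Arr ℕ) (Sc T : ℕ) : R (β ⊕ List ℕ) :=
  unitR X μ.get >>= fun u => lenL u >>= fun N => arrOfL u 0 (Arr.cst 0) >>= fun loc =>
    krv ⟨loc, N, z, c, ok⟩ (play (mp loc) N Sc) (piR N) Sc T

/-- an accepted cut, or the fake ends with the certificate -/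
def FreshRes (X : List ℕ) (μ : ℕ → ℕ) (z : ℕ) (c : Finset ℕ → ℕ) (ok : β → Prop) (T : ℕ) :
    β ⊕ List ℕ → Prop
  | .inl b => ok b
  | .inr fk => fk.length ≤ 2 * T * z ∧ (∀ v ∈ fk, v ∈ X) ∧
      ∀ U ⊆ X.toFinset, 2 * ∑ v ∈ U, μ v ≤ (X.map μ).sum →
        ∑ v ∈ U, μ v ≤ 2 * T * c U + 2 * fk.countP fun v => decide (v ∈ U)

theorem locOf_mem {X : List ℕ} {μ : ℕ → ℕ} {i : ℕ} (hi : i < (X.map μ).sum) :
    (locOf X μ).get i ∈ X := by
  rw [← length_unitList] at hi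
  have : (locOf X μ).get i ∈ unitList X μ := by
    simp only [locOf, List.getD_eq_getElem?_getD, List.getElem?_eq_getElem hi, Option.getD_some]
    exact List.getElem_mem hi
  obtain ⟨v, hv, h⟩ := List.mem_flatMap.1 this
  rwa [List.eq_of_mem_replicate h]

/-- the number of units at the vertices of `U` -/
theorem count_locOf {X : List ℕ} (hX : X.Nodup) (μ : ℕ → ℕ) (U : Finset ℕ) :
    (List.range (X.map μ).sum).countP (fun i => decide ((locOf X μ).get i ∈ U)) =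
      ∑ v ∈ X.toFinset ∩ U, μ v := by
  rw [← length_unitList]; exact units_in X hX μ U

theorem sp_fresh {mp : Arr ℕ → List ℕ → List ℕ → R (β ⊕ Split.Out)} {z : ℕ} {c : Finset ℕ → ℕ}
    {ok : β → Prop} {X : List ℕ} {μ : Arr ℕ} {Sc T l cm : ℕ} (hX : X.Nodup)
    (hm : ∀ L, L.Perm (List.range (X.map μ.get).sum) →
      Sp ⟨g.X, -1⟩ (mp (locOf X μ.get) (lowHalf L) (highHalf L)) fun o t =>
        (ctxOf X μ.get z c ok).Good L o ∧ t ≤ cm)
    (hS : 2 * Sc ≤ g.X) (hTN : T * (X.map μ.get).sum ≤ g.X) (hd : 1 / 2 ^ l ≤ g.d)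
    (hN : (X.map μ.get).sum ≤ 2 ^ l) (hT : 4 * (4 * l + 7) * (2 * l + 5) ≤ T)
    (hSc : T * 2 ^ (2 * l + 8) ≤ Sc) :
    Sp g (fresh mp z c ok X μ Sc T) fun o t => FreshRes X μ.get z c ok T o ∧
      t ≤ T * ((T + 12 * Sc.size + 20) * ((X.map μ.get).sum + 3) + 2 * cm) + 3 * X.length + 6 := by
  refine (sp_unitR X μ.get).bind fun u t1 k1 => (sp_lenL u).bind fun N t2 k2 =>
    (sp_arrOfL_cst u 0).bind fun loc t3 k3 => ?_
  obtain ⟨rfl, c1⟩ := k1
  obtain ⟨rfl, c2⟩ := k2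
  have e : loc = locOf X μ.get := Arr.ext' fun i => congrFun k3.1 i
  have c3 := k3.2
  subst e
  rw [length_unitList] at c2 c3 ⊢
  have hT0 : 1 ≤ T := le_trans (by nlinarith) hT
  refine (sp_krv (C := ctxOf X μ.get z c ok) (subs_play (g := ⟨g.X, -1⟩) hS hm) (by omega) hTN hd
    hN hT hSc).mono fun o t k => ⟨?_, ?_⟩
  · cases o with
    | inl b => exact k.1
    | inr fk =>
      obtain ⟨h1, h2, h3⟩ := k.1
      refine ⟨h1, fun v hv => ?_, fun U hU hh => ?_⟩
      · obtain ⟨i, hi, rfl⟩ := h2 v hv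
        exact locOf_mem hi
      · have e := count_locOf hX μ.get U
        rw [Finset.inter_eq_right.2 hU] at e
        rw [← e] at hh ⊢
        exact h3 U hh
  · have c4 := k.2
    simp only [ctxOf] at c4
    generalize (X.map μ.get).sum = N at *
    have : 5 * N ≤ T * (5 * N) := Nat.le_mul_of_pos_left _ hT0
    nlinarith [Nat.zero_le (T * Sc.size), Nat.zero_le (T * N), Nat.zero_le (T * Sc.size * N)]

end Crest.Agent.N325.M3
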