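import Crest.Agent.N325.M3.Fresh
import Crest.Agent.N325.Krv.Mp
import Crest.Agent.N325.Lf.Main

/-!
# Row 325, module M3 (helper27): the cut-matching game on a piece, with LocalFlow as the player
-/

set_option autoImplicit false
open Finset

namespace Crest.Agent.N325.M3

open Crest.Agent.N325.Split Crest.Agent.N325.Lf

variable {g : Gl}

/-- a piece: vertex list `X`, edges `E` of weight `w` and capacity `K * w`, measure `μ`;
`A0` bounds the total length of the adjacency lists (the fields `a`, `b` of `G` are not used) -/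
structure Piece (G : Net) (X : List ℕ) (E : Finset ℕ) (w μ : ℕ → ℕ) (K A0 : ℕ) : Prop where
  nd : X.Nodup
  wf : G.WF X.toFinset E
  capK : ∀ e ∈ E, G.cap e = K * w e
  dead : ∀ e, G.cap e = 0 → w e = 0
  deg : ∀ v ∈ X, G.wdeg E w v ≤ μ v
  adj : (X.map fun v => 1 + (G.adj v).length).sum ≤ A0

/-- a sparse cut with two heavy sides -/
structure CutOK (G : Net) (X : List ℕ) (E : Finset ℕ) (w μ : ℕ → ℕ) (K z : ℕ) (S : List ℕ) :
    Prop where
  nd : S.Nodup
  sub : S.toFinset ⊆ X.toFinset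
  cutS : K * G.crs E w S.toFinset (X.toFinset \ S.toFinset) ≤ 3 * ∑ v ∈ S.toFinset, μ v
  cutC : K * G.crs E w S.toFinset (X.toFinset \ S.toFinset) ≤
    3 * ∑ v ∈ X.toFinset \ S.toFinset, μ v
  bigS : z < 2 * ∑ v ∈ S.toFinset, μ v
  bigC : z < ∑ v ∈ X.toFinset \ S.toFinset, μ v

/-- the live edges of a piece -/
def edgesOf (G : Net) (X : List ℕ) : List ℕ :=
  X.flatMap fun v => (G.adj v).filter fun e => decide (G.src e = v ∧ 0 < G.cap e)

/-- the live edges of a piece, as a program -/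
def edgesR (G : Net) (X : List ℕ) : R (List ℕ) :=
  flatMapL (fun v => filterP (fun e => decide (G.src e = v ∧ 0 < G.cap e)) (G.adj v)) X

variable {G : Net} {X : List ℕ} {E : Finset ℕ} {w μ : ℕ → ℕ} {K A0 : ℕ}

theorem length_edgesOf (G : Net) (X : List ℕ) :
    (edgesOf G X).length + X.length ≤ (X.map fun v => 1 + (G.adj v).length).sum := by
  induction X with
  | nil => exact le_rfl
  | cons v X ih =>
    have := List.length_filter_le (fun e => decide (G.src e = v ∧ 0 < G.cap e)) (G.adj v)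
    simp only [edgesOf, List.flatMap_cons, List.length_append, List.length_cons, List.map_cons,
      List.sum_cons] at ih ⊢
    omega

theorem sp_edgesR (G : Net) (X : List ℕ) : Sp g (edgesR G X) fun r t =>
    r = edgesOf G X ∧ t ≤ 4 * (X.map fun v => 1 + (G.adj v).length).sum + 2 :=
  (sp_flatMapL _ (fun v => 2 * (1 + (G.adj v).length)) fun v _ => (sp_filterP _ _).mono
    fun _ _ h => ⟨h.1, by omega⟩).mono fun r t h => ⟨h.1, by
      have := length_edgesOf G X
      have := h.2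
      rw [List.sum_map_mul_left] at this
      unfold edgesOf at *
      omega⟩

theorem Piece.mem_edges (P : Piece G X E w μ K A0) {e : ℕ} :
    e ∈ edgesOf G X ↔ e ∈ E ∧ 0 < G.cap e := by
  simp only [edgesOf, List.mem_flatMap, List.mem_filter, decide_eq_true_eq]
  exact ⟨fun ⟨v, hv, h1, _, h3⟩ => ⟨P.wf.live v (List.mem_toFinset.2 hv) e h1 h3, h3⟩,
    fun ⟨h1, h2⟩ => ⟨_, List.mem_toFinset.1 (P.wf.src_mem e h1), (P.wf.full e h1 h2).1, rfl, h2⟩⟩

theorem Piece.nodup_edges (P : Piece G X E w μ K A0) : (edgesOf G X).Nodup := by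
  refine List.nodup_flatMap.2 ⟨fun v hv => (P.wf.nodup v (List.mem_toFinset.2 hv)).filter _,
    P.nd.imp fun {u v} huv e h1 h2 => huv ?_⟩
  simp only [List.mem_filter, decide_eq_true_eq] at h1 h2
  exact h1.2.1.symm.trans h2.2.1

theorem Piece.sum_edges {M : Type} [AddCommMonoid M] (P : Piece G X E w μ K A0) (F : ℕ → M)
    (h : ∀ e ∈ E, G.cap e = 0 → F e = 0) : ∑ e ∈ (edgesOf G X).toFinset, F e = ∑ e ∈ E, F e :=
  sum_subset (fun _ he => (P.mem_edges.1 (List.mem_toFinset.1 he)).1) fun e he hn => h e he <| by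
    by_contra k
    exact hn (List.mem_toFinset.2 (P.mem_edges.2 ⟨he, Nat.pos_of_ne_zero k⟩))

/-- flow or cut -/
def lfM (G : Net) (w μ : ℕ → ℕ) (D M fu z : ℕ) (p : Arr ℕ × Arr ℕ × List ℕ) :
    R (List ℕ ⊕ Arr ℤ) :=
  lf { G with a := p.1.get, b := p.2.1.get } w μ D M p.2.2 fu >>= fun r =>
    pure (if r.2.1 ≤ z then .inr r.1 else .inl r.2.2.1)

/-- the matching player -/
def mpLF (G : Net) (w μ : ℕ → ℕ) (D M fu z : ℕ) (Es : List ℕ) (loc : Arr ℕ) (A B : List ℕ) :
    R (List ℕ ⊕ Split.Out) :=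
  Tok.mp (lfM G w μ D M fu z) loc G.src G.dst Es A B

theorem cutOK_of_res {N : Net} {D Bw x z : ℕ} {f : ℕ → ℤ} {S : List ℕ} {l : List (ℕ × ℕ)}
    (h : Res N X.toFinset E w μ K D (∑ v ∈ X.toFinset, μ v) Bw f x S l) (hD : K ≤ D)
    (hab : ∀ v ∈ X.toFinset, N.a v + N.b v ≤ μ v)
    (hs : ∑ v ∈ X.toFinset, N.a v = ∑ v ∈ X.toFinset, N.b v) (hz : z < x) :
    CutOK N X E w μ K z S := by
  have h1 := h.cut
  have h2 := h.excP
  have h3 := h.compl
  have h4 := le_min_iff.1 ((Nat.mul_le_mul_right _ hD).trans h.sel)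
  have h5 := sum_sdiff (f := μ) h.sub
  have h6 := sum_sdiff (f := N.a) h.sub
  have h7 := sum_sdiff (f := N.b) h.sub
  have h8 := sum_le_sum fun v (hv : v ∈ S.toFinset) => hab v (h.sub hv)
  have h9 := sum_le_sum fun v (hv : v ∈ X.toFinset \ S.toFinset) => hab v (mem_sdiff.1 hv).1
  rw [sum_add_distrib] at h8 h9
  rw [mul_assoc] at h1
  exact ⟨h.nd, h.sub, by omega, by omega, by omega, by omega⟩

theorem sum_countP_loc {V : Finset ℕ} {loc : ℕ → ℕ} {A : List ℕ} (h : ∀ i ∈ A, loc i ∈ V) :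
    ∑ v ∈ V, A.countP (fun i => decide (loc i = v)) = A.length := by
  induction A with
  | nil => simp
  | cons a l ih =>
    simp only [List.countP_cons, sum_add_distrib, List.length_cons, decide_eq_true_eq,
      ih fun i hi => h i (List.mem_cons_of_mem _ hi), sum_ite_eq, h a List.mem_cons_self, if_true]

theorem sp_mpLF (P : Piece G X E w μ K A0) {D M k fu z : ℕ} (hM : M = (X.map μ).sum) (hD : K ≤ D)
    (hk : M < 2 ^ k) (hh : 2 * D * k + 2 ≤ G.h) (hKM : K * M ≤ g.X) (hMX : M ≤ g.X)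
    (hfu : G.h * (A0 + 2 * (K + 1) * M) + M < fu) {L : List ℕ} (hL : L.Perm (List.range M)) :
    Sp g (mpLF G w μ D M fu z (edgesOf G X) (locOf X μ) (lowHalf L) (highHalf L)) fun o t =>
      (ctxOf X μ z (fun U => K * G.crs E w U (X.toFinset \ U)) (CutOK G X E w μ K z)).Good L o ∧
        t ≤ 17 * (G.h + 2) * (A0 + 2 * (K + 1) * M + 1) := by
  have hMs : ∑ v ∈ X.toFinset, μ v = M := by rw [hM, List.sum_toFinset _ P.nd]
  have hsub := halves_sublist L
  have hloc : ∀ i ∈ lowHalf L ++ highHalf L, (locOf X μ).get i ∈ X.toFinset := fun i hi =>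
    List.mem_toFinset.2 (locOf_mem (hM ▸ List.mem_range.1 (hL.mem_iff.1 (hsub.subset hi))))
  have hA := fun i hi => hloc i (List.mem_append_left _ hi)
  have hB := fun i hi => hloc i (List.mem_append_right _ hi)
  have hlen : L.length = M := by simpa using hL.length_eq
  have lA := length_lowHalf L
  have lB := length_highHalf L
  set N : Net := { G with a := fun v => (lowHalf L).countP fun i => (locOf X μ).get i = v
                          b := fun v => (highHalf L).countP fun i => (locOf X μ).get i = v } with hN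
  have hab : ∀ v ∈ X.toFinset, N.a v + N.b v ≤ μ v := fun v hv => by
    have e := count_locOf P.nd μ {v}
    rw [inter_singleton_of_mem hv, sum_singleton, ← hM, ← hL.countP_eq] at e
    simp only [mem_singleton] at e
    rw [← e, hN, ← List.countP_append]
    exact hsub.countP_le
  have sa : ∑ v ∈ X.toFinset, N.a v = (lowHalf L).length := sum_countP_loc hA
  have sb : ∑ v ∈ X.toFinset, N.b v = (highHalf L).length := sum_countP_loc hB
  have hcv : ∀ v ∈ X.toFinset, N.cvol E v ≤ K * μ v := fun v hv => by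
    refine le_trans (le_of_eq ?_) (Nat.mul_le_mul_left K (P.deg v (List.mem_toFinset.1 hv)))
    rw [Net.cvol, Net.wdeg, mul_sum]
    exact sum_congr rfl fun e he => by rw [mul_ite, mul_zero, ← P.capK e he]
  have hBd : N.Bd X.toFinset E (A0 + 2 * (K + 1) * M) := fun T hT h => by
    refine (bd_global N _ E T hT h).trans ((sum_le_sum (g := fun v => 1 + (G.adj v).length +
      2 * (K + 1) * μ v) fun v hv => ?_).trans ?_)
    · have := hab v hv
      have := hcv v hv
      have e : N.adj = G.adj := rfl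
      unfold Net.wt
      rw [e]
      nlinarith
    · rw [sum_add_distrib, ← mul_sum, hMs, List.sum_toFinset _ P.nd]
      exact Nat.add_le_add_right P.adj _
  have hcall : Call N X.toFinset E w μ K D M k (A0 + 2 * (K + 1) * M) g.X
      ((lowHalf L).map (locOf X μ).get) :=
    ⟨⟨P.wf.1, P.wf.2, P.wf.3, P.wf.4, P.wf.5⟩, ⟨by simpa using hA, fun v _ h => by
        obtain ⟨i, hi, e⟩ := List.countP_pos_iff.1 (Nat.zero_lt_of_lt h)
        exact List.mem_map.2 ⟨i, hi, of_decide_eq_true e⟩⟩, P.capK, P.dead,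
      fun v hv => P.deg v (List.mem_toFinset.1 hv), hMs.le, hk, hh, hBd, hKM, hMX, by omega⟩
  have hE := length_edgesOf G X
  have hA0 := P.adj
  have hc : ∑ e ∈ (edgesOf G X).toFinset, G.cap e ≤ K * M := by
    rw [P.sum_edges _ fun _ _ h => h, sum_congr rfl P.capK, ← mul_sum, ← hMs]
    refine Nat.mul_le_mul_left _ (le_trans ?_ (sum_le_sum fun v hv =>
      P.deg v (List.mem_toFinset.1 hv)))
    simpa using le_sum_wdeg (N := G) (E := E) w X.toFinset (fun _ => True)
      fun e he _ => .inl (P.wf.src_mem e he)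
  refine (Tok.sp_mp N (V := X.toFinset) G.cap (z := z)
    (C := 11 * (G.h + 2) * (A0 + 2 * (K + 1) * M + 1) + M) (CutOK G X E w μ K z) (fun _ => rfl)
    (fun _ => rfl) P.nodup_edges ((hL.nodup_iff.2 List.nodup_range).sublist hsub).of_append_right
    (fun e he => ⟨P.wf.src_mem e (P.mem_edges.1 he).1, P.wf.dst_mem e (P.mem_edges.1 he).1⟩)
    hA hB fun a b ea eb => ?_).mono ?_
  · unfold lfM
    rw [show ({ G with a := a.get, b := b.get } : Net) = N by rw [ea, eb]]
    refine (sp_lf hcall (by rw [List.length_map]; change G.h * _ + _ < _; omega)).bind ?_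
    rintro ⟨f, x, S, l⟩ t ⟨h, ht⟩
    rw [List.length_map] at ht
    refine ⟨by change t ≤ 11 * (G.h + 2) * _ + _ at ht; omega, ?_⟩
    by_cases hz : x ≤ z
    · rw [if_pos hz]
      refine ⟨fun e _ => h.fl e, ?_⟩
      have : N.exc X.toFinset (edgesOf G X).toFinset f.get = N.exc X.toFinset E f.get :=
        sum_congr rfl fun v _ => by
          rw [Net.dv, P.sum_edges _ fun e _ k => by
            have : f.get e = 0 := Int.natAbs_eq_zero.1 (Nat.le_zero.1 (k ▸ h.fl e))
            simp [this], Net.dv]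
      rw [this, ← h.exc]
      exact Int.ofNat_le.2 hz
    · rw [if_neg hz]
      have := cutOK_of_res (hMs ▸ h) hD hab (by omega) (not_le.1 hz)
      exact ⟨this.1, this.2, this.3, this.4, this.5, this.6⟩
  · have key : ∀ t, t ≤ 11 * (G.h + 2) * (A0 + 2 * (K + 1) * M + 1) + M +
        3 * ∑ e ∈ (edgesOf G X).toFinset, G.cap e + 3 * (edgesOf G X).length +
        6 * (lowHalf L).length + 3 * (highHalf L).length + 12 →
        t ≤ 17 * (G.h + 2) * (A0 + 2 * (K + 1) * M + 1) := fun t ht => by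
      have e1 : 2 * (K + 1) * M = 2 * (K * M) + 2 * M := by ring
      have e2 : 2 * (A0 + 2 * (K + 1) * M + 1) ≤ (G.h + 2) * (A0 + 2 * (K + 1) * M + 1) :=
        Nat.mul_le_mul_right _ (by omega)
      rw [mul_assoc] at ht ⊢
      omega
    rintro (S | o) t ⟨h, ht⟩
    · exact ⟨h, key t ht⟩
    · refine ⟨⟨⟨h.fst, h.snd⟩, h.fk, fun U => (h.crs U).trans_eq ?_⟩, key t ht⟩
      change N.crs _ G.cap U _ = K * G.crs E w U _
      rw [← crs_mul, Net.crs, P.sum_edges _ fun e _ k => by simp [k]]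
      exact crs_congr (N := G) P.capK _ _

/-- **the game on a piece**; `E` is ghost data -/
def freshLF (G : Net) (E : Finset ℕ) (w : ℕ → ℕ) (X : List ℕ) (μ : Arr ℕ)
    (K D fu z Sc T : ℕ) : R (List ℕ ⊕ List ℕ) :=
  edgesR G X >>= fun Es => sumL μ.get X >>= fun M =>
    fresh (mpLF G w μ.get D M fu z Es) z (fun U => K * G.crs E w U (X.toFinset \ U))
      (CutOK G X E w μ.get K z) X μ Sc T

theorem sp_freshLF {μ : Arr ℕ} (P : Piece G X E w μ.get K A0) {D M k l fu z Sc T : ℕ}
    (hM : M = (X.map μ.get).sum) (hD : K ≤ D) (hk : M < 2 ^ k) (hh : 2 * D * k + 2 ≤ G.h)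
    (hKM : K * M ≤ g.X) (hfu : G.h * (A0 + 2 * (K + 1) * M) + M < fu) (hS : 2 * Sc ≤ g.X)
    (hTN : T * M ≤ g.X) (hd : 1 / 2 ^ l ≤ g.d) (hN : M ≤ 2 ^ l)
    (hT : 4 * (4 * l + 7) * (2 * l + 5) ≤ T) (hSc : T * 2 ^ (2 * l + 8) ≤ Sc) :
    Sp g (freshLF G E w X μ K D fu z Sc T) fun o t =>
      FreshRes X μ.get z (fun U => K * G.crs E w U (X.toFinset \ U)) (CutOK G X E w μ.get K z) T o ∧
      t ≤ T * ((T + 12 * Sc.size + 20) * (M + 3) + 34 * (G.h + 2) * (A0 + 2 * (K + 1) * M + 1)) +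
        8 * A0 + 9 := by
  have hT0 : 1 ≤ T := le_trans (by nlinarith) hT
  have hMX : M ≤ g.X := (Nat.le_mul_of_pos_left _ hT0).trans hTN
  have hE := length_edgesOf G X
  have hA0 := P.adj
  refine (sp_edgesR G X).bind ?_
  rintro _ t1 ⟨rfl, c1⟩
  refine (sp_sumL _ _ (hM ▸ hMX)).bind ?_
  rintro _ t2 ⟨rfl, c2⟩
  subst hM
  refine (sp_fresh P.nd (fun L hL => sp_mpLF (g := ⟨g.X, -1⟩) P rfl hD hk hh hKM hMX hfu hL) hS hTN
    hd hN hT hSc).mono fun o t h => ⟨h.1, ?_⟩
  have := h.2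
  rw [← mul_assoc 2, ← mul_assoc 2, show 2 * 17 = 34 from rfl] at this
  omega

end Crest.Agent.N325.M3
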