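import Crest.Agent.N325.M3.Prims
import Crest.Agent.N325.M3.CertR
import Crest.Agent.N325.Krv.Rounds

/-!
# Row 325, module M3: the cut-matching game as a program (helper29)

`pl` is the matching player composed with the median split, `pia` builds the array of a matching.
-/

set_option autoImplicit false

namespace Crest.Agent.N325.M3

open Crest.Agent.N325.Krv Crest.Agent.N325.Split

variable {β : Type}

/-- matchings (most recent first), vertices of fake ends, the cut if one was found -/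
abbrev St (β : Type) : Type := List (Arr ℕ) × List ℕ × Option β

/-- record the answer of the matching player -/
def record (pia : Split.Out → R (Arr ℕ)) (loc : Arr ℕ) (s : St β) (o : Split.Out) : R (St β) :=
  pia o >>= fun π => pushMap loc o.2.1 s.2.1 >>= fun f1 => pushMap loc o.2.2 f1 >>= fun f2 =>
    pure (π :: s.1, f2, none)

/-- one round on the start vector `a0` -/
def round (pl : Arr ℕ → R (β ⊕ Split.Out)) (pia : Split.Out → R (Arr ℕ)) (loc : Arr ℕ) (N : ℕ)
    (s : St β) (a0 : Arr ℕ) : R (St β) :=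
  match s.2.2 with
  | some _ => pure s
  | none => walkP N s.1 a0 >>= fun a => pl a >>= fun o =>
      match o with
      | .inl b => pure (s.1, s.2.1, some b)
      | .inr o => record pia loc s o

/-- `T` rounds on a list of bits -/
def game (pl : Arr ℕ → R (β ⊕ Split.Out)) (pia : Split.Out → R (Arr ℕ)) (loc : Arr ℕ)
    (N Sc T : ℕ) (bits : List Bool) : R (St β × List Bool) :=
  forN (fun _ p => loadBits Sc N p.2 >>= fun q => round pl pia loc N p.1 q.1 >>= fun s =>
    pure (s, q.2)) T 0 (([], [], none), bits)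

/-- the data of a game: units `0 … N-1` located by `loc`, `c U` bounds the real pairs across `U`,
`z` the fake pairs of a round, `ok` = accepted cuts -/
structure Ctx (β : Type) where
  loc : Arr ℕ
  N : ℕ
  z : ℕ
  c : Finset ℕ → ℕ
  ok : β → Prop

/-- a good answer with pairs -/
structure Ctx.Ans (C : Ctx β) (L : List ℕ) (o : Split.Out) : Prop where
  cov : Covers L o
  few : o.2.1.length ≤ C.z
  crs : ∀ U : Finset ℕ,
    o.1.countP (fun p => decide (C.loc.get p.1 ∈ U) != decide (C.loc.get p.2 ∈ U)) ≤ C.c U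

/-- a good answer for the order `L` -/
def Ctx.Good (C : Ctx β) (L : List ℕ) : β ⊕ Split.Out → Prop
  | .inl b => C.ok b
  | .inr o => C.Ans L o

/-- the matchings of a state -/
def Ctx.hist (C : Ctx β) (s : St β) : List (Fin C.N → Fin C.N) :=
  (s.1.map Arr.get).map (finPi C.N)

/-- the invariant of the game -/
def Ctx.Inv (C : Ctx β) (s : St β) : Prop :=
  (∃ l : List Split.Out, C.hist s = l.map (Split.Out.pi C.N) ∧
    s.2.1.Perm (l.flatMap (Split.Out.fk C.loc.get)) ∧
    ∀ o ∈ l, ∃ L, L.Perm (List.range C.N) ∧ C.Ans L o) ∧ (∀ b, s.2.2 = some b → C.ok b) ∧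
    Closed C.N (s.1.map Arr.get)

theorem Ctx.Inv.closed {C : Ctx β} {s : St β} (h : C.Inv s) : Closed C.N (s.1.map Arr.get) :=
  h.2.2

theorem Ctx.Inv.invol {C : Ctx β} {s : St β} (h : C.Inv s) :
    ∀ π ∈ C.hist s, Function.Involutive π := by
  obtain ⟨⟨l, e, -, k⟩, -⟩ := h
  intro π hπ
  rw [e] at hπ
  obtain ⟨o, ho, rfl⟩ := List.mem_map.1 hπ
  obtain ⟨L, h1, h2⟩ := k o ho
  exact h2.cov.invol h1

/-- the specification of the two subroutines -/
structure Subs (C : Ctx β) (g : Gl) (pl : Arr ℕ → R (β ⊕ Split.Out))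
    (pia : Split.Out → R (Arr ℕ)) (Sc cp : ℕ) : Prop where
  hpl : ∀ a : Arr ℕ, (∀ i, a.get i ≤ Sc) → Sp g (pl a) fun o t => (∃ L, L.Perm (List.range C.N) ∧
    L.Pairwise (fun i j => a.get i ≤ a.get j) ∧ C.Good L o) ∧ t ≤ cp
  hpia : ∀ L o, L.Perm (List.range C.N) → Covers L o →
    Sp g (pia o) fun π t => ((∀ i < C.N, π.get i < C.N) ∧ finPi C.N π.get = o.pi C.N) ∧ t ≤ cp

/-- what a round does -/
def Ctx.Step (C : Ctx β) (Sc : ℕ) (r : List Bool) (s s' : St β) : Prop :=
  C.Inv s' ∧ s.1.length ≤ s'.1.length ∧ s'.1.length ≤ s.1.length + 1 ∧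
    (s.2.2.isSome → s'.2.2.isSome) ∧
    (s'.2.2.isSome ∨ ∃ L P, C.hist s' = finPi C.N (piOf P) :: C.hist s ∧ Matches L P ∧
      L.Perm (List.range C.N) ∧
      L.Pairwise fun i j => iw Sc r (s.1.map Arr.get) i ≤ iw Sc r (s.1.map Arr.get) j)

variable {C : Ctx β} {g : Gl} {pl : Arr ℕ → R (β ⊕ Split.Out)} {pia : Split.Out → R (Arr ℕ)}
  {Sc cp : ℕ}

theorem sp_round (H : Subs C g pl pia Sc cp) (hX : Sc ≤ g.X) {s : St β} (hs : C.Inv s)
    (r : List Bool) :
    Sp g (round pl pia C.loc C.N s ⟨x0 Sc r⟩) fun s' t => C.Step Sc r s s' ∧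
      t ≤ s.1.length * (C.N + 3) + 2 * cp + C.N + 4 := by
  obtain ⟨h, fk, res⟩ := s
  cases res with
  | some b => exact ⟨⟨hs, le_rfl, Nat.le_succ _, id, .inl rfl⟩, Nat.zero_le _⟩
  | none =>
    refine (sp_walkP hX hs.closed ⟨x0 Sc r⟩ (x0_le Sc r)).bind fun a t1 k1 => ?_
    refine (H.hpl a k1.1.1).bind fun o t2 k2 => ?_
    obtain ⟨⟨L, hL, hsort, hg⟩, c2⟩ := k2
    have c1 := k1.2
    cases o with
    | inl b =>
      refine ⟨⟨⟨hs.1, fun b' e => ?_, hs.2.2⟩, le_rfl, Nat.le_succ _, fun _ => rfl, .inl rfl⟩, ?_⟩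
      · cases e; exact hg
      · simp only at c1 ⊢; omega
    | inr o =>
      have hg : C.Ans L o := hg
      refine (H.hpia L o hL hg.cov).bind fun π t3 k3 => ?_
      refine (sp_pushMap _ _ _).bind fun f1 t4 k4 => ?_
      refine (sp_pushMap _ _ _).bind fun f2 t5 k5 => ?_
      obtain ⟨⟨l, e, pf, k⟩, -, hcl⟩ := hs
      have hlen : L.length = C.N := by simpa using hL.length_eq
      have l1 := hg.cov.fst.length_eq
      have l2 := hg.cov.len
      simp only [List.length_append, List.length_map, length_lowHalf] at l1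
      refine ⟨⟨⟨⟨o :: l, ?_, ?_, ?_⟩, fun b e => (by cases e), ?_⟩, Nat.le_succ _, le_rfl,
        fun e => (by cases e), .inr ⟨L, o.pairs, ?_, hg.cov.matches, hL, ?_⟩⟩, ?_⟩
      · simp only [Ctx.hist, List.map_cons, k3.1.2] at e ⊢; rw [e]
      · refine k5.1.trans ?_
        rw [List.flatMap_cons, Split.Out.fk, List.map_append, List.append_assoc]
        refine ((k4.1.trans (pf.append_left _)).append_left _).trans ?_
        rw [← List.append_assoc, ← List.append_assoc]
        exact List.perm_append_comm.append_right _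
      · intro o' ho'
        rcases List.mem_cons.1 ho' with rfl | ho'
        · exact ⟨L, hL, hg⟩
        · exact k o' ho'
      · intro p hp
        rcases List.mem_cons.1 hp with rfl | hp
        · exact k3.1.1
        · exact hcl p hp
      · simp only [Ctx.hist, List.map_cons, k3.1.2]; rfl
      · refine hsort.imp_of_mem fun {i j} hi hj hij => ?_
        have hi' := List.mem_range.1 (hL.mem_iff.1 hi)
        have hj' := List.mem_range.1 (hL.mem_iff.1 hj)
        rw [k1.1.2 i hi', k1.1.2 j hj'] at hij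
        rw [iw_eq]
        exact hij
      · have := k3.2; have := k4.2; have := k5.2
        simp only at c1 ⊢; omega

/-- the round as a function -/
def rho (C : Ctx β) (pl : Arr ℕ → R (β ⊕ Split.Out)) (pia : Split.Out → R (Arr ℕ)) (Sc : ℕ)
    (s : St β) (r : List Bool) : St β :=
  dval (round pl pia C.loc C.N s ⟨x0 Sc r⟩)

theorem step_rho {X : ℕ} (H : Subs C ⟨X, -1⟩ pl pia Sc cp) (hX : Sc ≤ X) {s : St β} (hs : C.Inv s)
    (r : List Bool) : C.Step Sc r s (rho C pl pia Sc s r) := by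
  obtain ⟨t, h, -⟩ := sp_dval (sp_round H hX hs r)
  exact h

theorem inv_init (C : Ctx β) : C.Inv ([], [], none) :=
  ⟨⟨[], rfl, List.Perm.refl _, fun _ h => absurd h List.not_mem_nil⟩, fun _ e => (by cases e),
    fun _ h => absurd h List.not_mem_nil⟩

theorem sp_game (H : Subs C ⟨g.X, -1⟩ pl pia Sc cp) (hX : Sc ≤ g.X) (T : ℕ) (bits : List Bool) :
    Sp g (game pl pia C.loc C.N Sc T bits) fun p t =>
      (p.1 = itB (rho C pl pia Sc) C.N T ([], [], none) bits ∧ C.Inv p.1 ∧ p.1.1.length ≤ T) ∧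
        t ≤ T * (T * (C.N + 3) + 2 * cp + 2 * C.N + 6) + 1 := by
  refine (sp_forN' (fun j (p : St β × List Bool) => itB (rho C pl pia Sc) C.N (T - j) p.1 p.2 =
      itB (rho C pl pia Sc) C.N T ([], [], none) bits ∧ C.Inv p.1 ∧ p.1.1.length ≤ j)
    (i := 0) (T * (C.N + 3) + 2 * cp + 2 * C.N + 5) (fun j p _ hj k => ?_)
    (s := (([], [], none), bits)) ⟨rfl, inv_init C, le_rfl⟩).mono fun p t k => ⟨?_, k.2⟩
  · refine (sp_loadBits Sc C.N p.2).bind fun q t1 k1 => ?_
    obtain ⟨⟨a⟩, rest⟩ := q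
    obtain ⟨⟨rfl, rfl⟩, c1⟩ := k1
    refine (sp_det (sp_round H hX k.2.1 (p.2.take C.N)) g.d).bind fun s t2 k2 => ?_
    obtain ⟨rfl, st, c2⟩ := k2
    refine ⟨⟨?_, st.1, st.2.2.1.trans (Nat.succ_le_succ k.2.2)⟩, ?_⟩
    · rw [← k.1, show T - j = T - (j + 1) + 1 by omega]
      rfl
    · have : p.1.1.length * (C.N + 3) ≤ T * (C.N + 3) :=
        Nat.mul_le_mul_right _ (by have := k.2.2; omega)
      omega
  · have := k.1
    rw [zero_add, Nat.sub_self] at this
    exact this

/-- the samples on which the game finds a cut or mixes -/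
def Mixes (C : Ctx β) (pl : Arr ℕ → R (β ⊕ Split.Out)) (pia : Split.Out → R (Arr ℕ)) (Sc T : ℕ)
    (r : List Bool) : Prop :=
  C.N = 0 ∨ ((itB (rho C pl pia Sc) C.N T ([], [], none) r).2.2.isSome ∨
      T < (itB (rho C pl pia Sc) C.N T ([], [], none) r).1.length) ∨
    KRV.psi (KRV.walk (C.hist (itB (rho C pl pia Sc) C.N T ([], [], none) r))) ≤ 1 / 16

theorem bad_mono {n : ℕ} {G G' : List Bool → Prop} (h : ∀ l, G l → G' l) : bad n G' ≤ bad n G := by
  unfold bad
  refine div_le_div_of_nonneg_right (Nat.cast_le.2 (Finset.card_le_card fun v hv => ?_))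
    (by positivity)
  simp only [Finset.mem_filter, Finset.mem_univ, true_and] at hv ⊢
  exact fun k => hv (h _ k)

theorem bad_mixes {X l T : ℕ} (H : Subs C ⟨X, -1⟩ pl pia Sc cp) (hX : Sc ≤ X) (hN : C.N ≤ 2 ^ l)
    (hT : 4 * (4 * l + 7) * (2 * l + 5) ≤ T) (hSc : T * 2 ^ (2 * l + 8) ≤ Sc) :
    bad (T * C.N) (Mixes C pl pia Sc T) ≤ 1 / 2 ^ l := by
  rcases Nat.eq_zero_or_pos C.N with h0 | h0
  · refine (bad_mono (G := fun _ => True) fun _ _ => .inl h0).trans ?_
    simp [bad]
  have hT0 : 0 < T := lt_of_lt_of_le (by positivity) hT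
  refine (bad_mono fun r k => .inr k).trans (rounds_bad (rho C pl pia Sc) C.hist
    (fun s => s.2.2.isSome ∨ T < s.1.length) C.Inv (ε := 1 / 2 ^ (2 * l + 6)) (fun s r hs _ => ?_)
    (fun s hs => hs.invol) (inv_init C) rfl le_rfl h0 hN hT)
  obtain ⟨k1, k2, -, k4, k5⟩ := step_rho H hX hs r
  refine ⟨k1, fun h => h.imp k4 fun h => h.trans_le k2, ?_⟩
  rcases k5 with k5 | ⟨L, P, e, hP, hL, hsort⟩
  · exact .inl (.inl k5)
  by_cases hlen : s.1.length ≤ T
  · refine .inr ⟨finPi C.N (piOf P), e, ?_⟩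
    exact iw_split h0 hT0 hs.closed (by simpa using hlen) hSc r hP hL hsort
  · exact .inl (.inr (by omega))

/-- the result of the game -/
def result (s : St β) : β ⊕ List ℕ :=
  match s.2.2 with
  | some b => .inl b
  | none => .inr s.2.1

/-- **the cut-matching game** -/
def krv (C : Ctx β) (pl : Arr ℕ → R (β ⊕ Split.Out)) (pia : Split.Out → R (Arr ℕ)) (Sc T : ℕ) :
    R (β ⊕ List ℕ) :=
  nat (T * C.N) >>= fun n => smp n (Mixes C pl pia Sc T) >>= fun bits =>
    game pl pia C.loc C.N Sc T bits >>= fun p => pure (result p.1)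

/-- an accepted cut, or the list of the fake ends with the certificate -/
def Ctx.Res (C : Ctx β) (T : ℕ) : β ⊕ List ℕ → Prop
  | .inl b => C.ok b
  | .inr fk => fk.length ≤ 2 * T * C.z ∧ (∀ v ∈ fk, ∃ i < C.N, C.loc.get i = v) ∧
      ∀ U : Finset ℕ, 2 * (List.range C.N).countP (fun i => decide (C.loc.get i ∈ U)) ≤ C.N →
        (List.range C.N).countP (fun i => decide (C.loc.get i ∈ U)) ≤
          2 * T * C.c U + 2 * fk.countP fun v => decide (v ∈ U)

theorem sp_krv {l T : ℕ} (H : Subs C ⟨g.X, -1⟩ pl pia Sc cp) (hX : Sc ≤ g.X)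
    (hTN : T * C.N ≤ g.X) (hd : 1 / 2 ^ l ≤ g.d) (hN : C.N ≤ 2 ^ l)
    (hT : 4 * (4 * l + 7) * (2 * l + 5) ≤ T) (hSc : T * 2 ^ (2 * l + 8) ≤ Sc) :
    Sp g (krv C pl pia Sc T) fun o t => C.Res T o ∧
      t ≤ T * (T * (C.N + 3) + 2 * cp + 3 * C.N + 6) + 2 := by
  refine sp_bind.2 (sp_nat.2 ⟨hTN, sp_bind.2 (sp_smp.2
    ⟨(bad_mixes H hX hN hT hSc).trans hd, fun bits _ hm => ?_⟩)⟩)
  refine (sp_game H hX T bits).bind fun p t k => ?_
  obtain ⟨⟨e, hI, hl⟩, c⟩ := k
  refine ⟨?_, by nlinarith⟩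
  rw [Mixes, ← e] at hm
  obtain ⟨⟨h, fk, res⟩, rest⟩ := p
  cases res with
  | some b => exact hI.2.1 b rfl
  | none =>
    have hinv := hI.invol
    obtain ⟨⟨os, e1, pf, k⟩, -⟩ := hI
    simp only at e1 pf hl hm
    have hlen : os.length ≤ T := by
      have := congrArg List.length e1
      simp only [Ctx.hist, List.length_map] at this
      omega
    refine ⟨?_, fun v hv => ?_, fun U hU => ?_⟩
    · rw [pf.length_eq]
      refine (length_flatMap_fk_le C.loc.get (z := C.z) fun o ho => ?_).trans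
        (Nat.mul_le_mul_right _ (by omega))
      obtain ⟨L, -, h2⟩ := k o ho
      exact ⟨⟨L, h2.cov⟩, h2.few⟩
    · obtain ⟨o, ho, hv⟩ := List.mem_flatMap.1 (pf.mem_iff.1 hv)
      obtain ⟨i, hi, rfl⟩ := List.mem_map.1 hv
      obtain ⟨L, h1, h2⟩ := k o ho
      refine ⟨i, List.mem_range.1 (h1.mem_iff.1 ((halves_sublist L).subset ?_)), rfl⟩
      rcases List.mem_append.1 hi with hi | hi
      · exact List.mem_append_left _ (h2.cov.fst.mem_iff.1 (List.mem_append_right _ hi))
      · exact List.mem_append_right _ (h2.cov.snd.mem_iff.1 (List.mem_append_right _ hi))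
    · rcases hm with h0 | (h1 | h1) | h1
      · rw [h0]; exact Nat.zero_le _
      · cases h1
      · omega
      rw [e1] at h1 hinv
      rw [pf.countP_eq]
      refine (cert_result C.loc.get os (fun o ho => (k o ho).imp fun L q => ⟨q.1, q.2.cov⟩)
        (mix_fin hinv h1) U (c := C.c U) (fun o ho => ?_) hU).trans
        (Nat.add_le_add_right (Nat.mul_le_mul_right _ (by omega)) _)
      obtain ⟨L, -, h2⟩ := k o ho
      exact h2.crs U

end Crest.Agent.N325.M3
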