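import Crest.Agent.N325.M3.Cert
import Crest.Agent.N325.Krv.Tok

/-!
# Row 325, module M3: from the token walk to one round of matchings (helper12)
-/

set_option autoImplicit false

namespace Crest.Agent.N325.Split

open Finset

lemma coe_flatMap_range (n : ℕ) (f : ℕ → List ℕ) :
    (((List.range n).flatMap f : List ℕ) : Multiset ℕ) = ∑ v ∈ range n, (f v : Multiset ℕ) := by
  induction n with
  | zero => simp
  | succ n ih =>
    rw [List.range_succ, List.flatMap_append, sum_range_succ, ← ih, ← Multiset.coe_add]
    simp

lemma coe_flatMap (X : List ℕ) (f : ℕ → List ℕ) :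
    ((X.flatMap f : List ℕ) : Multiset ℕ) = (X.map fun v => (f v : Multiset ℕ)).sum := by
  induction X with
  | nil => simp
  | cons v X ih => rw [List.flatMap_cons, ← Multiset.coe_add, ih]; simp

/-- the round made of the pairs of the walk and the zip of the leftovers -/
def rndOf (t : Tok.St) (rest : List ℕ) : Rnd := (t.prs, t.unm.zip rest)

/-- The token walk started from the lower half, with the upper half as sinks, gives a perfect
matching of the halves; crossing real pairs are paid by unit arcs, fake pairs by lost tokens. -/
theorem round_of_res {n : ℕ} {loc : ℕ → ℕ} {out snk : ℕ → List ℕ} {L : List ℕ} {t : Tok.St}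
    (h : Tok.Res n loc out snk (lowHalf L) t)
    (hs : ∑ v ∈ range n, (snk v : Multiset ℕ) = (highHalf L : Multiset ℕ))
    {rest : List ℕ} (hr : (rest : Multiset ℕ) = ∑ v ∈ range n, (t.snk v : Multiset ℕ)) :
    Matches L ((rndOf t rest).1 ++ (rndOf t rest).2) ∧
      (rndOf t rest).2.length = t.unm.length ∧
      ∀ T : ℕ → Bool, crossN (fun i => T (loc i) = true) (rndOf t rest).1
        ≤ Tok.cross n out T + Tok.cross n out fun v => !T v := by
  have hx : (t.prs.map Prod.fst ++ t.unm).Perm (lowHalf L) := by
    rw [← Multiset.coe_eq_coe, ← Multiset.coe_add]; exact h.src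
  have hy : (t.prs.map Prod.snd ++ rest).Perm (highHalf L) := by
    rw [← Multiset.coe_eq_coe, ← Multiset.coe_add, hr, h.tgt, hs]
  obtain ⟨h1, h2⟩ := matches_append_zip hx hy
  refine ⟨h2, by simp [rndOf, h1], fun T => ?_⟩
  refine Nat.add_le_add (le_trans (le_of_eq ?_) (h.crs T))
    (le_trans (le_of_eq ?_) (h.crs fun v => !T v))
  · exact List.countP_congr fun p _ => by simp
  · exact List.countP_congr fun p _ => by simp

end Crest.Agent.N325.Split
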