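import Crest.Agent.N325.M0.Mon
import Crest.Agent.N325.Krv.Fix

/-!
# Row 325, module M3: small programs of the cut-matching game (helper29)
-/

set_option autoImplicit false

namespace Crest.Agent.N325.M3

open Crest.Agent.N325.Krv

variable {α : Type} {g : Gl}

/-- the value of a program without samples -/
def dval (m : R α) : α := (m.run []).val

theorem bad_nonneg (n : ℕ) (G : List Bool → Prop) : 0 ≤ bad n G := by
  unfold bad; positivity

/-- a specification with a negative failure bound: the program is deterministic -/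
theorem sp_det {m : R α} {Q : α → ℕ → Prop} {X : ℕ} (h : Sp ⟨X, -1⟩ m Q) (d : ℝ) :
    Sp ⟨X, d⟩ m fun a t => a = dval m ∧ Q a t := by
  induction m generalizing Q with
  | ret a => exact ⟨rfl, h⟩
  | tk t p m ih => exact ⟨h.1, ih h.2⟩
  | smp n G m _ => exact absurd (h.1.trans_lt' (a := -1) (by linarith [bad_nonneg n G])) (lt_irrefl _)

theorem sp_dval {m : R α} {Q : α → ℕ → Prop} {X : ℕ} (h : Sp ⟨X, -1⟩ m Q) : ∃ t, Q (dval m) t := by
  induction m generalizing Q with
  | ret a => exact ⟨0, h⟩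
  | tk t p m ih => obtain ⟨s, hs⟩ := ih h.2; exact ⟨_, hs⟩
  | smp n G m _ => exact absurd (h.1.trans_lt' (a := -1) (by linarith [bad_nonneg n G])) (lt_irrefl _)

/-- `l.reverse ++ acc` -/
def revApp (l acc : List α) : R (List α) := foldL (fun a s => pure (a :: s)) l acc

theorem sp_revApp (l acc : List α) :
    Sp g (revApp l acc) fun r t => r = l.reverse ++ acc ∧ t ≤ l.length + 1 := by
  refine (sp_foldL' (fun l' s => l'.reverse ++ s = l.reverse ++ acc) (fun _ => 0)
    (fun a l' s k => ?_) rfl).mono fun r t k => ⟨by simpa using k.1, by simpa using k.2⟩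
  simpa using k

/-- one step of `loadBits` -/
def ldStep (Sc i : ℕ) (s : Arr ℕ × List Bool) : Arr ℕ × List Bool :=
  match s.2 with
  | [] => s
  | b :: r => (s.1.set i (if b = true then Sc else 0), r)

/-- the first `N` bits, scaled by `Sc`, and the rest of the list -/
def loadBits (Sc N : ℕ) (l : List Bool) : R (Arr ℕ × List Bool) :=
  forN (fun i s => pure (ldStep Sc i s)) N 0 (Arr.cst 0, l)

/-- the start vector of the integer walk -/
def x0 (Sc : ℕ) (r : List Bool) (j : ℕ) : ℕ := Sc * ((r.getD j false).toNat % 2)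

theorem x0_le (Sc : ℕ) (r : List Bool) (j : ℕ) : x0 Sc r j ≤ Sc := by
  unfold x0; cases r.getD j false <;> simp

theorem sp_loadBits (Sc N : ℕ) (l : List Bool) :
    Sp g (loadBits Sc N l) fun s t =>
      (s.1.get = x0 Sc (l.take N) ∧ s.2 = l.drop N) ∧ t ≤ N + 1 := by
  refine (sp_forN' (fun j (s : Arr ℕ × List Bool) => s.1.get = x0 Sc (l.take j) ∧ s.2 = l.drop j)
    0 (fun j s _ _ k => ?_) ⟨by funext j; simp [x0], rfl⟩).mono fun s t k =>
      ⟨by simpa using k.1, by simpa using k.2⟩
  obtain ⟨a, r⟩ := s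
  obtain ⟨k1, k2⟩ := k
  simp only at k1 k2
  refine ⟨?_, le_rfl⟩
  cases r with
  | nil =>
    have hl : l.length ≤ j := List.drop_eq_nil_iff.1 k2.symm
    refine ⟨?_, (List.drop_eq_nil_iff.2 (by omega)).symm⟩
    rw [List.take_of_length_le (by omega)]
    rwa [List.take_of_length_le hl] at k1
  | cons b r =>
    have hj : j < l.length := by
      by_contra h
      rw [List.drop_eq_nil_iff.2 (by omega)] at k2
      cases k2
    rw [List.drop_eq_getElem_cons hj] at k2
    obtain ⟨rfl, rfl⟩ := List.cons.inj k2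
    refine ⟨funext fun i => ?_, rfl⟩
    simp only [ldStep, Arr.get_set, k1, x0, List.getD_eq_getElem?_getD, List.getElem?_take]
    by_cases e : i = j
    · subst e
      simp only [if_true, Nat.lt_succ_self, List.getElem?_eq_getElem hj, Option.getD_some]
      cases l[i] <;> simp
    · rw [if_neg e]
      by_cases e' : i < j
      · rw [if_pos e', if_pos (by omega)]
      · rw [if_neg e', if_neg (by omega)]

/-- one averaging pass on the first `N` entries -/
def avgPass (N : ℕ) (π a : Arr ℕ) : R (Arr ℕ) :=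
  forN (fun i b => nat ((a.get i + a.get (π.get i)) / 2) >>= fun x => pure (b.set i x)) N 0
    (Arr.cst 0)

theorem sp_avgPass {N Sc : ℕ} (hX : Sc ≤ g.X) (π a : Arr ℕ) (ha : ∀ i, a.get i ≤ Sc) :
    Sp g (avgPass N π a) fun b t =>
      ((∀ i, b.get i ≤ Sc) ∧ ∀ i < N, b.get i = (a.get i + a.get (π.get i)) / 2) ∧ t ≤ N + 1 := by
  refine (sp_forN' (fun j (b : Arr ℕ) => (∀ i, b.get i ≤ Sc) ∧
      ∀ i < j, b.get i = (a.get i + a.get (π.get i)) / 2)
    0 (fun j b _ _ k => ?_) ⟨fun i => Nat.zero_le _, fun i h => absurd h (Nat.not_lt_zero _)⟩).mono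
      fun s t k => ⟨by simpa using k.1, by simpa using k.2⟩
  have h1 := ha j
  have h2 := ha (π.get j)
  rw [sp_bind, sp_nat, sp_pure]
  refine ⟨by omega, ⟨fun i => ?_, fun i hi => ?_⟩, le_rfl⟩
  · rw [Arr.get_set]; split_ifs
    · omega
    · exact k.1 i
  · rw [Arr.get_set]; split_ifs with e
    · rw [e]
    · exact k.2 i (by omega)

/-- the integer walk; `h` = the matchings, most recent first -/
def walkP (N : ℕ) (h : List (Arr ℕ)) (a : Arr ℕ) : R (Arr ℕ) :=
  revApp h [] >>= fun h' => foldL (avgPass N) h' a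

theorem sp_walkP {N Sc : ℕ} (hX : Sc ≤ g.X) {h : List (Arr ℕ)} (hc : Closed N (h.map Arr.get))
    (a : Arr ℕ) (ha : ∀ i, a.get i ≤ Sc) :
    Sp g (walkP N h a) fun b t =>
      ((∀ i, b.get i ≤ Sc) ∧ ∀ i < N, b.get i = walkN (h.map Arr.get) a.get i) ∧
        t ≤ h.length * (N + 3) + 2 := by
  refine (sp_revApp h []).bind fun h' t k => ?_
  obtain ⟨rfl, kt⟩ := k
  refine (sp_foldL' (fun l' (b : Arr ℕ) => (∀ i, b.get i ≤ Sc) ∧ ∃ h0, h = l'.reverse ++ h0 ∧
      ∀ i < N, b.get i = walkN (h0.map Arr.get) a.get i) (fun _ => N + 1)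
    (fun π l' b k => ?_) ⟨ha, [], by simp, fun i _ => rfl⟩).mono fun b s k => ⟨⟨k.1.1, ?_⟩, ?_⟩
  · obtain ⟨k1, h0, e, k2⟩ := k
    refine (sp_avgPass hX π b k1).mono fun c s q => ⟨⟨q.1.1, π :: h0, by simp [e], ?_⟩, q.2⟩
    intro i hi
    have hπ : π.get i < N := hc π.get (List.mem_map_of_mem (by simp [e])) i hi
    rw [q.1.2 i hi, List.map_cons, walkN_cons, k2 i hi, k2 _ hπ]
  · obtain ⟨_, h0, e, k2⟩ := k.1
    simp only [List.reverse_nil, List.nil_append] at e
    rwa [e]
  · have := k.2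
    simp only [List.append_nil, List.map_const', List.length_reverse, List.sum_replicate,
      smul_eq_mul] at this
    nlinarith

/-- push the images of the entries of `l` on `acc` -/
def pushMap (loc : Arr ℕ) (l acc : List ℕ) : R (List ℕ) :=
  foldL (fun a s => pure (loc.get a :: s)) l acc

theorem sp_pushMap (loc : Arr ℕ) (l acc : List ℕ) :
    Sp g (pushMap loc l acc) fun r t => r.Perm (l.map loc.get ++ acc) ∧ t ≤ l.length + 1 := by
  refine (sp_foldL' (fun l' s => (l'.map loc.get ++ s).Perm (l.map loc.get ++ acc)) (fun _ => 0)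
    (fun a l' s k => ?_) (List.Perm.refl _)).mono fun r t k =>
      ⟨by simpa using k.1, by simpa using k.2⟩
  rw [sp_pure]
  exact ⟨List.perm_middle.trans k, le_rfl⟩

end Crest.Agent.N325.M3
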